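import Vale.Agent.P281.H842.HKT.Fub

/-!
# P281, T-HKT, class C (helper747): Fubini and Borel-Cantelli for the slices
-/

open Set Filter Metric MeasureTheory Vale.Agent.P272.K
open scoped Topology ENNReal

noncomputable section

namespace Vale.Agent.P281.H747.HKT

open Vale.Agent.P281.H842.HKT (p1 p2 ap pe vol_pe ap_cont pe_apply ap_p)

variable {a m N : ℕ}

/-- **Almost every slice.** -/
theorem ae_slice {P : Fin N → Set (Cm (a + m))} (hP : ∀ k, MeasurableSet (P k))
    (hP1 : ∀ k, P k ⊆ ball 0 1) {G : ℕ → Fin N → Cm (a + m) → ℝ}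
    (hG : ∀ n k, ContinuousOn (G n k) (ball 0 3)) (h0 : ∀ n k z, 0 ≤ G n k z)
    (hlt : ∀ n, ∑ k, ∫ z in P k, G n k z ≤ (1 / 2) ^ n) :
    ∀ᵐ s : Cm a, ∀ ε > 0, ∃ n, ∀ Q : Fin N → Set (Cm m), (∀ k, MeasurableSet (Q k)) →
      (∀ k, ∀ y ∈ Q k, ap s y ∈ P k) → ∑ k, ∫ y in Q k, G n k (ap s y) < ε := by
  classical
  set H : ℕ → Fin N → Cm (a + m) → ℝ≥0∞ := fun n k =>
    (P k).indicator fun z => ENNReal.ofReal (G n k z) with hH
  have h13 : ball (0 : Cm (a + m)) 1 ⊆ ball 0 3 := ball_subset_ball (by norm_num)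
  have hmH : ∀ n k, Measurable (H n k) := by
    intro n k
    have h1 : Measurable ((ball (0 : Cm (a + m)) 3).piecewise (G n k) fun _ => (0 : ℝ)) :=
      (hG n k).measurable_piecewise continuousOn_const isOpen_ball.measurableSet
    have h2 : H n k = (P k).indicator fun z =>
        ENNReal.ofReal ((ball (0 : Cm (a + m)) 3).piecewise (G n k) (fun _ => (0 : ℝ)) z) := by
      funext z
      show (P k).indicator _ z = (P k).indicator _ z
      by_cases hz : z ∈ P k
      · rw [indicator_of_mem hz, indicator_of_mem hz,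
          piecewise_eq_of_mem _ _ _ (h13 (hP1 k hz))]
      · rw [indicator_of_notMem hz, indicator_of_notMem hz]
    rw [h2]
    exact (ENNReal.measurable_ofReal.comp h1).indicator (hP k)
  have hint : ∀ n k, IntegrableOn (G n k) (P k) := fun n k =>
    (((hG n k).mono (closedBall_subset_ball (by norm_num))).integrableOn_compact
      (isCompact_closedBall (0 : Cm (a + m)) 1)).mono_set ((hP1 k).trans ball_subset_closedBall)
  have h1 : ∀ n k, ∫⁻ z, H n k z = ENNReal.ofReal (∫ z in P k, G n k z) := by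
    intro n k
    rw [ofReal_integral_eq_lintegral_ofReal (hint n k) (Eventually.of_forall (h0 n k)),
      ← lintegral_indicator (hP k)]
  have hmeas : ∀ n k, Measurable fun q : Cm a × Cm m => H n k (ap q.1 q.2) := fun n k =>
    (hmH n k).comp ap_cont.measurable
  have h2 : ∀ n k, ∫⁻ s, ∫⁻ y, H n k (ap s y) = ∫⁻ z, H n k z := by
    intro n k
    have e1 := (vol_pe a m).lintegral_comp (hmeas n k)
    have e2 : ∀ z, H n k (ap (pe a m z).1 (pe a m z).2) = H n k z := fun z => by
      rw [pe_apply, ap_p]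
    simp only [e2] at e1
    rw [e1]
    exact (lintegral_prod (μ := (volume : Measure (Cm a))) (ν := (volume : Measure (Cm m))) _
      (hmeas n k).aemeasurable).symm
  set J : ℕ → Cm a → ℝ≥0∞ := fun n s => ∑ k, ∫⁻ y, H n k (ap s y) with hJ
  have hmJ : ∀ n, Measurable (J n) := fun n =>
    Finset.measurable_fun_sum _ fun k _ => (hmeas n k).lintegral_prod_right'
  have h3 : ∀ n, ∫⁻ s, J n s ≤ ENNReal.ofReal ((1 / 2) ^ n) := by
    intro n
    rw [hJ]
    simp only
    rw [lintegral_finsetSum _ fun k _ => (hmeas n k).lintegral_prod_right']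
    simp only [h2, h1]
    rw [← ENNReal.ofReal_sum_of_nonneg fun k _ =>
      integral_nonneg_of_ae (Eventually.of_forall (h0 n k))]
    exact ENNReal.ofReal_le_ofReal (hlt n)
  have h4 : ∫⁻ s, ∑' n, J n s ≠ ⊤ := by
    rw [lintegral_tsum fun n => (hmJ n).aemeasurable]
    refine ne_top_of_le_ne_top ?_ (ENNReal.tsum_le_tsum h3)
    have h5 : Summable fun n : ℕ => ((1 : ℝ) / 2) ^ n :=
      summable_geometric_of_lt_one (by norm_num) (by norm_num)
    rw [← ENNReal.ofReal_tsum_of_nonneg (fun n => by positivity) h5]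
    exact ENNReal.ofReal_ne_top
  filter_upwards [ae_lt_top (Measurable.tsum hmJ) h4] with s hs ε hε
  have h5 := ENNReal.tendsto_atTop_zero_of_tsum_ne_top hs.ne
  obtain ⟨n, hn⟩ := (h5.eventually (gt_mem_nhds (ENNReal.ofReal_pos.2 hε))).exists
  refine ⟨n, fun Q hQ hQP => ?_⟩
  have h6 : ∀ k, ENNReal.ofReal (∫ y in Q k, G n k (ap s y)) ≤ ∫⁻ y, H n k (ap s y) := by
    intro k
    by_cases hi : IntegrableOn (fun y => G n k (ap s y)) (Q k)
    · rw [ofReal_integral_eq_lintegral_ofReal hi (Eventually.of_forall fun y => h0 n k _)]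
      refine le_trans (le_of_eq ?_) (setLIntegral_le_lintegral (Q k) _)
      refine setLIntegral_congr_fun (hQ k) fun y hy => ?_
      show _ = (P k).indicator _ (ap s y)
      rw [indicator_of_mem (hQP k y hy)]
    · rw [integral_undef hi, ENNReal.ofReal_zero]
      exact zero_le
  have h7 : ENNReal.ofReal (∑ k, ∫ y in Q k, G n k (ap s y)) < ENNReal.ofReal ε := by
    rw [ENNReal.ofReal_sum_of_nonneg fun k _ =>
      integral_nonneg_of_ae (Eventually.of_forall fun y => h0 n k _)]
    exact (Finset.sum_le_sum fun k _ => h6 k).trans_lt hn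
  exact (ENNReal.ofReal_lt_ofReal_iff hε).1 h7

end Vale.Agent.P281.H747.HKT
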