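import Vale.Agent.P281.H152.RC.Defs
import Vale.Agent.P281.H125.HKT.Pb
import Vale.Agent.P281.H747.HKT.Slm
import Vale.Agent.P281.H864.HK.Rep

/-!
# P281, RADC (helper747): `HTStmt` on almost every fibre
-/

open Set Filter Metric MeasureTheory Vale.Agent.P272.K
open scoped Topology ContDiff ComplexConjugate ComplexOrder

set_option linter.unusedSectionVars false

noncomputable section

namespace Vale.Agent.P281.H747.HKT

open Vale.Agent.P281.H64.TK Vale.Agent.P281.H64.TK.TS Vale.Agent.P281.H152.RC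
open Vale.Agent.P281.H399.QT (One1 Qs pj quo t2_quo kah_quo continuous_pj)
open Vale.Agent.P281.H842.HKT (p1 p2 ap pe mem_ball_iff p1_ap p2_ap ap_p ap_cont)
open Vale.Agent.P281.H751.HKT (rs rs_apply inc inc_left inc_right inc_rb)
open Vale.Agent.P281.H125.HKT (Trg HasTrg Pullg pb1 pb1_eq pb1_F1On pb1_IsD1 hasTrg_id)
open Vale.Agent.P281.H83.HK (W3 bW c20 rb ts cjs kw Hol2 HTStmt tf cj kf)
open Vale.Agent.P281.H125.TS (f1_of f2_of)

variable {a h n : ℕ}

theorem c20_rs (x : L2 (a + h)) (j k : Fin h) :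
    c20 (rs x) j k = c20 x (Fin.natAdd a j) (Fin.natAdd a k) := by
  simp only [c20, Matrix.of_apply, rs_apply, inc_rb]

theorem ap_eq (t : Cm a) (u : Cm h) : ap t u = inc a h u + ap t 0 := by
  funext k
  refine Fin.addCases (fun k => ?_) (fun k => ?_) k
  · show ap t u _ = inc a h u _ + ap t 0 _
    rw [inc_left, zero_add]
    simp [ap]
  · show ap t u _ = inc a h u _ + ap t 0 _
    rw [inc_right]
    simp [ap]

theorem fd_ap (t : Cm a) (z : Cm h) : fderiv ℝ (fun u : Cm h => ap t u) z = inc a h := by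
  have h1 : (fun u : Cm h => ap t u) = fun u => inc a h u + ap t 0 := funext fun u => ap_eq t u
  rw [h1]
  exact ((inc a h).hasFDerivAt.add_const _).fderiv

theorem sm_ap (t : Cm a) : ContDiff ℝ ∞ (fun u : Cm h => ap t u) := by
  have h1 : (fun u : Cm h => ap t u) = fun u => inc a h u + ap t 0 := funext fun u => ap_eq t u
  rw [h1]
  exact (inc a h).contDiff.add contDiff_const

section
variable {E K : Type} [TopologicalSpace E] [T2Space E] [Group K] [MulAction K E]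
  [ContinuousConstSMul K E] {S : Sheets (a + h) E K} {F : E → Fin a → ℂ} {c : K → Fin a → ℂ}
  {t₀ : Cm a} {ε : ℝ}

/-- the map of the fibre to the quotient -/
def eF (K : Type) [Group K] [MulAction K E] (F : E → Fin a → ℂ) (t : Fin a → ℂ) (e : Fb F t) :
    Qs K E := pj K e.1

theorem eF_cont (t : Fin a → ℂ) : Continuous (eF K F t : Fb F t → Qs K E) :=
  continuous_pj.comp inF_cont

variable (hA : Adp S F c t₀ ε n) {t : Cm a} (ht : t ∈ ball (0 : Cm a) 1)

theorem trg_self (i : Fin n) {z : Cm h} (hz : z ∈ ball (0 : Cm h) 3) :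
    Trg (fibS hA ht) (quo S) (eF K F (t₀ + (ε : ℂ) • t)) i (Fin.castLE hA.le i) z (ap t z)
      fun u => ap t u := by
  refine ⟨(sm_ap t).contDiffAt, rfl, ?_⟩
  filter_upwards [isOpen_ball.mem_nhds hz] with u hu
  show pj K (fbσ hA ht i u).1 = pj K (S.σ (Fin.castLE hA.le i) (ap t u))
  rw [fbσ_val hA ht i hu]

theorem hasTrg_fib : HasTrg (fibS hA ht) (quo S) (eF K F (t₀ + (ε : ℂ) • t)) := by
  intro i j z hz z' hz' e
  have h1 := trg_self hA ht i hz
  have h2 : (quo S).σ (Fin.castLE hA.le i) (ap t z) = (quo S).σ j z' := by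
    rw [← e]
    exact h1.2.2.self_of_nhds.symm
  obtain ⟨θ, hθ⟩ := hasTrg_id (quo S) (Fin.castLE hA.le i) j (ap t z) (ap_mem3 ht hz) z' hz' h2
  have h3 := h1.comp hθ
  exact ⟨_, h3⟩

/-- the fundamental domains -/
theorem fib_P_sub (i : Fin n) {z : Cm h} (hz : z ∈ (fibS hA ht).P i) :
    ap t z ∈ (quo S).P (Fin.castLE hA.le i) := by
  have hz1 : ‖z‖ < 1 := hz.1
  have hz3 : z ∈ ball (0 : Cm h) 3 := mem_ball_zero_iff.2 (by linarith)
  refine ⟨mem_ball_zero_iff.1 (H842.HKT.ap_mem ht (mem_ball_zero_iff.2 hz1)), ?_⟩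
  intro j hj γ w hw he
  have hjn : j.val < n := lt_trans (show j.val < i.val from hj) i.isLt
  have hj' : j = Fin.castLE hA.le ⟨j.val, hjn⟩ := rfl
  have hw3 : w ∈ ball (0 : Cm (a + h)) 3 := mem_ball_zero_iff.2 (by linarith)
  have he' : pj K (S.σ j w) = pj K (S.σ (Fin.castLE hA.le i) (ap t z)) := he
  obtain ⟨k, hk⟩ := H399.QT.pj_eq.1 he'
  rw [hj'] at hk
  obtain ⟨hk1, hk2⟩ := eq_of_act hA (ap_mem3 ht hz3) hw3 hk
  rw [p1_ap] at hk2
  subst hk1
  rw [one_smul] at hk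
  have hw2 : w = ap t (p2 w) := by rw [hk2, ap_p]
  have hp2 : ‖p2 w‖ < 1 := mem_ball_zero_iff.1 ((mem_ball_iff w 1).1 (mem_ball_zero_iff.2 hw)).2
  have hp3 : p2 w ∈ ball (0 : Cm h) 3 := mem_ball_zero_iff.2 (by linarith)
  refine hz.2 ⟨j.val, hjn⟩ hj 1 (p2 w) hp2 ?_
  show (1 : One1) • fbσ hA ht ⟨j.val, hjn⟩ (p2 w) = fbσ hA ht i z
  rw [one_smul]
  refine fb_ext ?_
  rw [fbσ_val hA ht _ hp3, fbσ_val hA ht i hz3, ← hw2]
  exact hk.symm

end

/-- **HT on almost every fibre.** -/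
theorem ht_slices (hHT : HTStmt) {E K : Type} [TopologicalSpace E] [T2Space E]
    [PreconnectedSpace E] [Group K] [MulAction K E]
    [ContinuousConstSMul K E] {S : Sheets (a + h) E K} {F : E → Fin a → ℂ} {c : K → Fin a → ℂ}
    {t₀ : Cm a} {ε : ℝ} (hA : Adp S F c t₀ ε n)
    {w : Fin S.N → Cm (a + h) → Matrix (Fin (a + h)) (Fin (a + h)) ℂ}
    {x : Fin S.N → Cm (a + h) → L2 (a + h)} (hd : 2 ≤ a + h) (hw : Kah S w)
    (hx : Cl2 (quo S) x) :
    ∃ η : Fin S.N → Cm (a + h) → Matrix (Fin (a + h)) (Fin (a + h)) ℂ, Hol2 (quo S) η ∧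
      (∀ δ > 0, ∃ β : Fin S.N → Cm (a + h) → L1 (a + h), F1On (quo S) univ β ∧
        ∑ i, ∫ z in (quo S).P i, ∑ j, ∑ k, ‖(c20 (x i z - d1 (β i) z) - η i z) j k‖ ^ 2 < δ) ∧
      ∀ᵐ t : Cm a, ∀ ht : t ∈ ball (0 : Cm a) 1, ∀ δ > 0,
        ∃ β : Fin n → Cm h → L1 h, F1On (fibS hA ht) univ β ∧
          ∑ i : Fin n, ∫ z in (fibS hA ht).P i, ∑ j, ∑ k,
            ‖(c20 (sl hA x t i z - d1 (β i) z) - slm hA η t i z) j k‖ ^ 2 < δ := by
  have := t2_quo S
  obtain ⟨η, hη, h1⟩ := hHT (a + h) (Qs K E) One1 (quo S) w x hd (kah_quo hw) hx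
  refine ⟨η, hη, fun δ hδ => ?_, ?_⟩
  · obtain ⟨β, k1, -, k2⟩ := h1 δ hδ
    exact ⟨β, k1, k2⟩
  choose! β hβ _ hlt using fun m : ℕ => h1 ((1 / 2) ^ m) (by positivity)
  -- the densities
  set M : ℕ → Fin S.N → Cm (a + h) → Matrix (Fin (a + h)) (Fin (a + h)) ℂ := fun m i z =>
    c20 (x i z - d1 (β m i) z) - η i z with hM
  have hMc : ∀ m i j k, ContinuousOn (fun z => M m i z j k) (ball 0 3) := by
    intro m i j k
    have hdβ : ContinuousOn (d1 (β m i)) (ball 0 3) := ((f1_of (hβ m)).dx.smooth i).continuousOn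
    have hη' : ContinuousOn (fun z => η i z j k) (ball 0 3) := (hη.hol i j k).continuousOn
    refine (((H864.HK.cont_c20 (H864.HK.cl2_cont hx i) j k).sub
      (H864.HK.cont_c20 hdβ j k)).sub hη').congr fun z _ => ?_
    show (c20 (x i z - d1 (β m i) z) - η i z) j k = _
    rw [H864.HK.c20_sub]
    rfl
  set G : ℕ → Fin n → Cm (a + h) → ℝ := fun m i z => ∑ j : Fin h, ∑ k : Fin h,
    ‖M m (Fin.castLE hA.le i) z (Fin.natAdd a j) (Fin.natAdd a k)‖ ^ 2 with hG
  set G' : ℕ → Fin S.N → Cm (a + h) → ℝ := fun m i z => ∑ j, ∑ k, ‖M m i z j k‖ ^ 2 with hG'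
  have hGc : ∀ m i, ContinuousOn (G m i) (ball 0 3) := fun m i =>
    continuousOn_finsetSum _ fun j _ => continuousOn_finsetSum _ fun k _ =>
      (hMc m _ _ _).norm.pow 2
  have hGc' : ∀ m i, ContinuousOn (G' m i) (ball 0 3) := fun m i =>
    continuousOn_finsetSum _ fun j _ => continuousOn_finsetSum _ fun k _ =>
      (hMc m _ _ _).norm.pow 2
  have hG0 : ∀ m i z, 0 ≤ G m i z := fun m i z =>
    Finset.sum_nonneg fun j _ => Finset.sum_nonneg fun k _ => by positivity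
  have hG0' : ∀ m i z, 0 ≤ G' m i z := fun m i z =>
    Finset.sum_nonneg fun j _ => Finset.sum_nonneg fun k _ => by positivity
  have hsub : ∀ f : Fin (a + h) → ℝ, (∀ j, 0 ≤ f j) → ∑ j : Fin h, f (Fin.natAdd a j) ≤
      ∑ j, f j := by
    intro f hf
    rw [Fin.sum_univ_add]
    exact le_add_of_nonneg_left (Finset.sum_nonneg fun j _ => hf _)
  have hGG : ∀ m i z, G m i z ≤ G' m (Fin.castLE hA.le i) z := by
    intro m i z
    refine le_trans (Finset.sum_le_sum fun j _ => hsub (fun k =>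
      ‖M m (Fin.castLE hA.le i) z (Fin.natAdd a j) k‖ ^ 2) fun k => by positivity) ?_
    exact hsub (fun j => ∑ k, ‖M m (Fin.castLE hA.le i) z j k‖ ^ 2)
      fun j => Finset.sum_nonneg fun k _ => by positivity
  have hbound : ∀ m, ∑ i : Fin n, ∫ z in (quo S).P (Fin.castLE hA.le i), G m i z ≤ (1 / 2) ^ m := by
    intro m
    have e1 : ∀ i : Fin n, ∫ z in (quo S).P (Fin.castLE hA.le i), G m i z ≤
        ∫ z in (quo S).P (Fin.castLE hA.le i), G' m (Fin.castLE hA.le i) z := fun i =>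
      setIntegral_mono_on (H303.K.integrableOn_P (quo S) _ (hGc m i))
        (H303.K.integrableOn_P (quo S) _ (hGc' m _)) (H840.TS.meas_P (quo S) _)
        fun z _ => hGG m i z
    refine (Finset.sum_le_sum fun i _ => e1 i).trans (le_trans ?_ (hlt m).le)
    have e2 := Finset.sum_map Finset.univ (Fin.castLEEmb hA.le)
      (fun j => ∫ z in (quo S).P j, G' m j z)
    refine (le_of_eq e2.symm).trans ?_
    exact Finset.sum_le_sum_of_subset_of_nonneg (Finset.subset_univ _) fun j _ _ =>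
      integral_nonneg_of_ae (Eventually.of_forall (hG0' m j))
  filter_upwards [ae_slice (P := fun i : Fin n => (quo S).P (Fin.castLE hA.le i))
    (fun i => H840.TS.meas_P (quo S) _) (fun i => H840.TS.P_sub (quo S) _) hGc hG0 hbound]
    with t hae ht δ hδ
  obtain ⟨m, hm⟩ := hae δ hδ
  have hT := hasTrg_fib hA ht
  have hf1 := pb1_F1On (eF_cont (K := K) (F := F) (t₀ + (ε : ℂ) • t)) hT isOpen_univ (hβ m)
  refine ⟨pb1 (fibS hA ht) (quo S) (eF K F (t₀ + (ε : ℂ) • t)) (β m), hf1, ?_⟩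
  refine lt_of_eq_of_lt ?_ (hm (fun i => (fibS hA ht).P i) (fun i => H840.TS.meas_P (fibS hA ht) i)
    fun i z hz => fib_P_sub hA ht i hz)
  refine Finset.sum_congr rfl fun i _ => setIntegral_congr_fun (H840.TS.meas_P (fibS hA ht) i) ?_
  intro z hz
  have hz1 : ‖z‖ < 1 := hz.1
  have hz3 : z ∈ ball (0 : Cm h) 3 := mem_ball_zero_iff.2 (by linarith)
  have key : d1 (pb1 (fibS hA ht) (quo S) (eF K F (t₀ + (ε : ℂ) • t)) (β m) i) z =
      rs (d1 (β m (Fin.castLE hA.le i)) (ap t z)) := by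
    have k1 : pb1 (fibS hA ht) (quo S) (eF K F (t₀ + (ε : ℂ) • t)) (β m) i =ᶠ[𝓝 z]
        fun u => (β m (Fin.castLE hA.le i) (ap t u)).comp (inc a h) := by
      filter_upwards [isOpen_ball.mem_nhds hz3] with u hu
      rw [pb1_eq (hβ m) (ap_mem3 ht hu) (mem_univ _) (trg_self hA ht i hu), fd_ap]
    have k2 : DifferentiableAt ℝ (β m (Fin.castLE hA.le i)) (ap t z) :=
      ((hβ m).smooth _ _ (ap_mem3 ht hz3) (mem_univ _)).differentiableAt (by simp)
    have k3 : HasFDerivAt (fun u : Cm h => ap t u) (inc a h) z := by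
      have := ((sm_ap t).contDiffAt (x := z)).differentiableAt (by simp) |>.hasFDerivAt
      rwa [fd_ap] at this
    have k4 : HasFDerivAt (fun u : Cm h => β m (Fin.castLE hA.le i) (ap t u))
        ((fderiv ℝ (β m (Fin.castLE hA.le i)) (ap t z)).comp (inc a h)) z :=
      HasFDerivAt.comp z k2.hasFDerivAt k3
    have k5 := k4.clm_comp (hasFDerivAt_const (inc a h) z)
    have k6 : ∀ u v, fderiv ℝ (pb1 (fibS hA ht) (quo S) (eF K F (t₀ + (ε : ℂ) • t)) (β m) i) z u v =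
        fderiv ℝ (β m (Fin.castLE hA.le i)) (ap t z) (inc a h u) (inc a h v) := by
      intro u v
      rw [k1.fderiv_eq, k5.fderiv]
      simp
    refine ContinuousLinearMap.ext fun u => ContinuousLinearMap.ext fun v => ?_
    show fderiv ℝ (pb1 (fibS hA ht) (quo S) (eF K F (t₀ + (ε : ℂ) • t)) (β m) i) z u v -
      fderiv ℝ (pb1 (fibS hA ht) (quo S) (eF K F (t₀ + (ε : ℂ) • t)) (β m) i) z v u =
      fderiv ℝ (β m (Fin.castLE hA.le i)) (ap t z) (inc a h u) (inc a h v) -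
      fderiv ℝ (β m (Fin.castLE hA.le i)) (ap t z) (inc a h v) (inc a h u)
    rw [k6, k6]
  show ∑ j, ∑ k, ‖(c20 (sl hA x t i z - d1 _ z) - slm hA η t i z) j k‖ ^ 2 =
    ∑ j : Fin h, ∑ k : Fin h, ‖M m (Fin.castLE hA.le i) (ap t z) (Fin.natAdd a j)
      (Fin.natAdd a k)‖ ^ 2
  rw [key]
  refine Finset.sum_congr rfl fun j _ => Finset.sum_congr rfl fun k _ => ?_
  congr 2
  show c20 (rs (x _ (ap t z)) - rs (d1 (β m (Fin.castLE hA.le i)) (ap t z))) j k -
    η _ (ap t z) _ _ = _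
  have e3 : rs (x (Fin.castLE hA.le i) (ap t z)) - rs (d1 (β m (Fin.castLE hA.le i)) (ap t z)) =
    rs (x (Fin.castLE hA.le i) (ap t z) - d1 (β m (Fin.castLE hA.le i)) (ap t z)) := rfl
  rw [e3, c20_rs]
  rfl

end Vale.Agent.P281.H747.HKT
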