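import Vale.Agent.P281.H152.RC.Spec
import Vale.Agent.P281.H747.HKT.HtS
import Vale.Agent.P281.H864.HKT.Alg
import Vale.Agent.P281.H864.HK.Ratio
import Vale.Agent.P281.H191.HKT.Th
import Vale.Agent.P281.H594.HK.Per0

/-!
# P281, RADC, R6 (helper747): `HTsStmt`
-/

open Set Filter Metric MeasureTheory Vale.Agent.P272.K
open scoped Topology ContDiff ComplexConjugate ComplexOrder

set_option linter.unusedSectionVars false

noncomputable section

namespace Vale.Agent.P281.H747.HKT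

open Vale.Agent.P281.H64.TK Vale.Agent.P281.H64.TK.TS Vale.Agent.P281.H152.RC
open Vale.Agent.P281.H399.QT (One1 Qs pj quo t2_quo kah_quo)
open Vale.Agent.P281.H83.HK (W W3 bW c20 ts cjs kw Hol2 HTStmt tf cj kf FormsStmt)
open Vale.Agent.P281.H83.HKT (W4 bT Hol1)
open Vale.Agent.P281.H191.HKT (bl bl_cl bT_eq)
open Vale.Agent.P281.H594.HK (ab3 ab3_apply bW_wint)
open Vale.Agent.P281.H864.HK (Wint rep W_eq W3_zero)

/-- the (2,0)-part, with `θ` -/
theorem W4_c20 {a d : ℕ} (had : a + 2 ≤ d) (u : Matrix (Fin a) (Fin d) ℂ)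
    {s w : Matrix (Fin d) (Fin d) ℂ} (hs : s.transpose = -s) (hw : w.PosDef) {x : L2 d}
    (hx : ∀ p q, x p q = -x q p) (h0 : c20 x = 0) : W4 u x (cj (tf s)) (kf w) = 0 := by
  obtain ⟨m, rfl⟩ := exists_m had
  rw [W4_eq (by omega)]
  exact H864.HKT.Wt_zero (by omega) u hs hw hx h0

section
variable {d : ℕ} {E Γ : Type} [TopologicalSpace E] [Group Γ] [MulAction Γ E]
  [ContinuousConstSMul Γ E] [Subsingleton Γ] {S : Sheets d E Γ}

/-- **the (2,0)-part in `bT`** -/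
theorem bT_c20 {a : ℕ} (had : a + 2 ≤ d) {u : Fin S.N → Cm d → Matrix (Fin a) (Fin d) ℂ}
    (hu : Hol1 S u) {x : Fin S.N → Cm d → L2 d}
    {s s' w : Fin S.N → Cm d → Matrix (Fin d) (Fin d) ℂ} (hx : Cl2 S x) (hs : Cl2 S (ts s))
    (hs' : ∀ i, ∀ z ∈ ball (0 : Cm d) 3, (s' i z).transpose = -s' i z)
    (hc' : Cl2 S (cjs (ts s'))) (hw : ∀ i, ∀ z ∈ ball (0 : Cm d) 3, (w i z).PosDef)
    (hcw : Cl2 S (kw w))
    (hHT : ∀ δ > 0, ∃ β : Fin S.N → Cm d → L1 d, F1On S univ β ∧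
      ∑ i, ∫ z in S.P i, ∑ j, ∑ k, ‖(c20 (x i z - d1 (β i) z) - s i z) j k‖ ^ 2 < δ) :
    bT S u x (cjs (ts s')) (kw w) = bT S u (ts s) (cjs (ts s')) (kw w) := by
  have hd : 0 < d := by omega
  have e : ∀ y : Fin S.N → Cm d → L2 d, bl u y (cjs (ts s')) (kw w) =
      Function.update (bl u x (cjs (ts s')) (kw w)) ⟨0, hd⟩ y := by
    intro y
    funext l
    by_cases hl : l = ⟨0, hd⟩
    · subst hl
      rw [Function.update_self]
      simp [bl]
    · rw [Function.update_of_ne hl]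
      have h1 : l.val ≠ 0 := fun h => hl (Fin.ext h)
      simp [bl, h1]
  rw [bT_eq, bT_eq, e x, e (ts s)]
  refine rep (fun k _ => bl_cl hu hx hc' hcw k) hx hs hHT fun i z hz b hb h0 => ?_
  have h2 := W4_c20 had (u i z) (hs' i z hz) (hw i z hz) hb h0
  rw [W4, W_eq] at h2
  rw [← h2]
  congr 1
  funext l
  by_cases hl : l = ⟨0, hd⟩
  · subst hl
    rw [Function.update_self]
    simp [H83.HKT.lst]
  · rw [Function.update_of_ne hl]
    have h1 : l.val ≠ 0 := fun h => hl (Fin.ext h)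
    unfold bl H83.HKT.lst
    rw [if_neg h1, if_neg h1]
    split_ifs <;> rfl

/-- **the (2,0)-part in `bW`** -/
theorem bW_c20 (hd : 2 ≤ d) {x : Fin S.N → Cm d → L2 d}
    {s s' w : Fin S.N → Cm d → Matrix (Fin d) (Fin d) ℂ} (hx : Cl2 S x) (hs : Cl2 S (ts s))
    (hs' : ∀ i, ∀ z ∈ ball (0 : Cm d) 3, (s' i z).transpose = -s' i z)
    (hc' : Cl2 S (cjs (ts s'))) (hw : ∀ i, ∀ z ∈ ball (0 : Cm d) 3, (w i z).PosDef)
    (hcw : Cl2 S (kw w))
    (hHT : ∀ δ > 0, ∃ β : Fin S.N → Cm d → L1 d, F1On S univ β ∧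
      ∑ i, ∫ z in S.P i, ∑ j, ∑ k, ‖(c20 (x i z - d1 (β i) z) - s i z) j k‖ ^ 2 < δ) :
    bW S x (cjs (ts s')) (kw w) = bW S (ts s) (cjs (ts s')) (kw w) := by
  have hd0 : 0 < d := by omega
  have e : ∀ y : Fin S.N → Cm d → L2 d, ab3 y (cjs (ts s')) (kw w) =
      Function.update (ab3 x (cjs (ts s')) (kw w)) ⟨0, hd0⟩ y := by
    intro y
    funext l
    by_cases hl : l = ⟨0, hd0⟩
    · subst hl
      rw [Function.update_self]
      simp [ab3]
    · rw [Function.update_of_ne hl]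
      have h1 : l.val ≠ 0 := fun h => hl (Fin.ext h)
      simp [ab3, h1]
  rw [bW_wint, bW_wint, e x, e (ts s)]
  refine rep (fun k _ => ?_) hx hs hHT fun i z hz b hb h0 => ?_
  · unfold ab3
    split_ifs
    · exact hx
    · exact hc'
    · exact hcw
  · have h2 := W3_zero H747.HK.wVal hd (hw i z hz) (hs' i z hz) hb h0
    rw [W3, W_eq] at h2
    rw [← h2]
    congr 1
    funext l
    by_cases hl : l = ⟨0, hd0⟩
    · subst hl
      rw [Function.update_self]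
      simp [H83.HK.abc]
    · rw [Function.update_of_ne hl]
      have h1 : l.val ≠ 0 := fun h => hl (Fin.ext h)
      unfold ab3 H83.HK.abc
      rw [if_neg h1, if_neg h1]
      split_ifs <;> rfl

end

/-- **R6** -/
theorem hts (hHT : HTStmt) (hFo : FormsStmt) (hSl : SliceStmt) : HTsStmt := by
  intro a h E K _ _ _ _ _ _ S w F c t₀ ε n hA x h2 hw hx
  have := t2_quo S
  obtain ⟨s, hs, h3, h4⟩ := ht_slices hHT hA (by omega) hw hx
  refine ⟨s, hs, fun u s' hu hs' => ?_, ?_⟩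
  · obtain ⟨f1, f2, f3⟩ := hFo (a + h) (Qs K E) One1 (quo S) (by omega)
    have hqw := kah_quo hw
    exact bT_c20 (S := quo S) (by omega) hu hx (f1 s hs) hs'.alt (f3 _ (f1 s' hs')) hqw.posDef
      (f2 w hqw).1 h3
  · filter_upwards [h4] with t h5 ht s' hs'
    obtain ⟨g1, -, -, -, g5, g6, -⟩ := hSl a h E K S F c t₀ ε n hA t ht
    obtain ⟨f1, f2, f3⟩ := hFo h (Fb F (t₀ + (ε : ℂ) • t)) One1 (fibS hA ht) (by omega)
    exact bW_c20 (S := fibS hA ht) h2 (g1 x hx) (f1 _ (g6 s hs)) hs'.alt (f3 _ (f1 s' hs'))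
      (g5 w hw).posDef (f2 _ (g5 w hw)).1 (h5 ht)

end Vale.Agent.P281.H747.HKT
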