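import Vale.Agent.P281.H747.HKT.Fin
import Vale.Agent.P281.H747.HK.Pos
import Vale.Agent.P281.H191.HKT.Th

/-!
# P281, T-HKT: `PosTStmt` (helper747)
-/

open Set Filter Metric MeasureTheory Equiv
open scoped Topology ContDiff ComplexConjugate ComplexOrder

noncomputable section

namespace Vale.Agent.P281.H747.HKT

open Vale.Agent.P281.H64.TK Vale.Agent.P281.H64.TK.TS Vale.Agent.P281.H83.HK
open Vale.Agent.P281.H64 (Cm)
open Vale.Agent.P281.H747.HK
open Vale.Agent.P281.H191.HKT (bl bl_cl contT cl2_thj)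
open Vale.Agent.P281.H83.HKT (dt uu thj lst W4 thl bT Hol1 GenU DetTStmt ValTStmt FormsTStmt
  PosTStmt)

section
variable {a d : ℕ} {E Γ : Type} [TopologicalSpace E] [Group Γ] [MulAction Γ E] {S : Sheets d E Γ}

theorem W4_bl (u : Fin S.N → Cm d → Matrix (Fin a) (Fin d) ℂ) (x y c : Fin S.N → Cm d → L2 d)
    (i : Fin S.N) (z : Cm d) : W4 (u i z) (x i z) (y i z) (c i z) =
      H864.HK.W fun l => bl u x y c l i z := by
  rw [W4, H864.HK.W_eq]
  congr 1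
  funext l
  unfold lst bl
  split_ifs <;> rfl

variable [ContinuousConstSMul Γ E] [Subsingleton Γ]

/-- Positivity of `bT` from the sign of the density. -/
theorem bT_re_pos {u : Fin S.N → Cm d → Matrix (Fin a) (Fin d) ℂ} (hu : Hol1 S u)
    {x y c : Fin S.N → Cm d → L2 d} (hx : Cl2 S x) (hy : Cl2 S y) (hc : Cl2 S c)
    (hr : ∀ i, ∀ z ∈ ball (0 : Cm d) 3, ∃ r : ℝ, 0 ≤ r ∧
      W4 (u i z) (x i z) (y i z) (c i z) = (r : ℂ))
    (hne : ∃ i, ∃ z ∈ ball (0 : Cm d) 3, W4 (u i z) (x i z) (y i z) (c i z) ≠ 0) :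
    0 < (bT S u x y c).re := by
  have h1 : ∀ i, ∀ z ∈ ball (0 : Cm d) 3, W4 (u i z) (x i z) (y i z) (c i z) =
      (((W4 (u i z) (x i z) (y i z) (c i z)).re : ℝ) : ℂ) := by
    intro i z hz
    obtain ⟨r, -, h⟩ := hr i z hz
    rw [h, Complex.ofReal_re]
  unfold bT
  rw [int_congr' h1]
  refine TS.int_pos S (fun i z => (W4 (u i z) (x i z) (y i z) (c i z)).re)
    (fun i => Complex.continuous_re.comp_continuousOn (contT hu hx hy hc i))
    (fun i z hz => ?_) (fun i j z hz z' hz' he h => ?_) ?_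
  · obtain ⟨r, h0, h⟩ := hr i z hz
    rw [h, Complex.ofReal_re]
    exact h0
  · intro h2
    apply h
    obtain ⟨θ, k1, k2, k3⟩ := S.hol i j z hz z' hz' 1 (by rw [one_smul]; exact he)
    have h3 : (H864.HK.W fun k => bl u x y c k i z) =
        (fderiv ℝ θ z).det • (H864.HK.W fun k => bl u x y c k j z') :=
      H864.HK.isTop_W (fun k => H125.TS.f2_of (bl_cl hu hx hy hc k).1) i j z hz z' hz' 1 θ k1 k2 k3
    have h4 : W4 (u j z') (x j z') (y j z') (c j z') = 0 := by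
      rw [h1 j z' hz', h2, Complex.ofReal_zero]
    rw [W4_bl] at h4 ⊢
    rw [h3, h4, smul_zero, Complex.zero_re]
  · obtain ⟨i, z, hz, h⟩ := hne
    refine ⟨i, z, hz, fun h2 => h ?_⟩
    rw [h1 i z hz, h2, Complex.ofReal_zero]

omit [ContinuousConstSMul Γ E] in
theorem bT_zero_of {u : Fin S.N → Cm d → Matrix (Fin a) (Fin d) ℂ}
    {x y c : Fin S.N → Cm d → L2 d}
    (h : ∀ i, ∀ z ∈ ball (0 : Cm d) 3, W4 (u i z) (x i z) (y i z) (c i z) = 0) :
    bT S u x y c = 0 := by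
  unfold bT
  rw [int_congr' (D' := fun _ _ => 0) h]
  simp [Sheets.int]

end

/-- **POS**, from FORMS of T-HK. -/
theorem posTStmt (fo : FormsStmt) : PosTStmt := by
  intro a d E Γ _ _ _ _ _ _ S w u s had hw hs
  obtain ⟨hts, hkw, hcj⟩ := fo d E Γ S (by omega)
  have hkc := (hkw w hw).1
  have hu := hs.one
  have hsk := hs.form.alt
  obtain ⟨i₀, z₀, hz₀, hne⟩ := hs.ne
  refine ⟨?_, ?_, ?_, ?_, fun m α hm hα => ?_⟩
  · refine bT_re_pos hu hkc hkc hkc (fun i z hz => ?_) ⟨i₀, z₀, hz₀, ?_⟩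
    · obtain ⟨r, hr, h1, -⟩ := W4_vol had (u i z) (hw.posDef i z hz)
      exact ⟨r, hr, h1⟩
    · obtain ⟨r, hr, h1, h2⟩ := W4_vol had (u i₀ z₀) (hw.posDef i₀ z₀ hz₀)
      show W4 (u i₀ z₀) (kf (w i₀ z₀)) (kf (w i₀ z₀)) (kf (w i₀ z₀)) ≠ 0
      rw [h1]
      exact_mod_cast (h2 (row_indep_of_dt hne)).ne'
  · exact bT_zero_of fun i z hz =>
      W4_tf_tf had (u i z) (hsk i z hz) (hsk i z hz) (hw.posDef i z hz)
  · exact bT_zero_of fun i z hz => W4_tf_kf had (u i z) (hsk i z hz) _ (hw.posDef i z hz)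
  · refine bT_re_pos hu (hts s hs.form) (hcj _ (hts s hs.form)) hkc (fun i z hz => ?_)
      ⟨i₀, z₀, hz₀, ?_⟩
    · obtain ⟨r, hr, h1, -⟩ := W4_pos had (u i z) (hsk i z hz) (hw.posDef i z hz)
      exact ⟨r, hr, h1⟩
    · obtain ⟨r, hr, h1, h2⟩ := W4_pos had (u i₀ z₀) (hsk i₀ z₀ hz₀) (hw.posDef i₀ z₀ hz₀)
      show W4 (u i₀ z₀) (tf (s i₀ z₀)) (cj (tf (s i₀ z₀))) (kf (w i₀ z₀)) ≠ 0
      rw [h1]
      exact_mod_cast (h2 hne).ne'
  · exact bT_zero_of fun i z hz => (W4_uu had m _ _).1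

end Vale.Agent.P281.H747.HKT
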