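import Vale.Agent.P281.H83.HKT.Defs
import Vale.Agent.P281.H64.Base2

/-!
# P281, T-HKT: the covolume `cov` (helper747)
-/

open scoped ComplexConjugate

noncomputable section

namespace Vale.Agent.P281.H747.HKT

open Vale.Agent.P281.H64 (Mark)
open Vale.Agent.P281.H83.HKT (cov)

variable {a : ℕ}

/-- the real matrix of a complex one -/
def rb (A : Matrix (Fin a) (Fin a) ℂ) : Matrix (Fin a ⊕ Fin a) (Fin a ⊕ Fin a) ℝ :=
  Matrix.fromBlocks (A.map Complex.re) (-(A.map Complex.im)) (A.map Complex.im) (A.map Complex.re)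

theorem rb_det (A : Matrix (Fin a) (Fin a) ℂ) : (rb A).det = ‖A.det‖ ^ 2 := by
  have h1 : Matrix.fromBlocks (1 : Matrix (Fin a) (Fin a) ℂ) (Complex.I • 1) 0 1 *
      (rb A).map Complex.ofRealHom * Matrix.fromBlocks 1 (-(Complex.I • 1)) 0 1 =
      Matrix.fromBlocks A 0 (A.map fun z => ((z.im : ℝ) : ℂ)) (A.map conj) := by
    rw [rb, Matrix.fromBlocks_map, Matrix.fromBlocks_multiply, Matrix.fromBlocks_multiply]
    have e1 : ((1 : Matrix (Fin a) (Fin a) ℂ) * (A.map Complex.re).map Complex.ofRealHom +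
        (Complex.I • (1 : Matrix (Fin a) (Fin a) ℂ)) * (A.map Complex.im).map Complex.ofRealHom) =
        A := by
      ext j k
      simp only [Matrix.one_mul, Matrix.smul_mul, Matrix.add_apply, Matrix.smul_apply,
        Matrix.map_apply, Complex.ofRealHom_eq_coe, smul_eq_mul]
      conv_rhs => rw [← Complex.re_add_im (A j k)]
      ring
    have e2 : ((1 : Matrix (Fin a) (Fin a) ℂ) * (-(A.map Complex.im)).map Complex.ofRealHom +
        (Complex.I • (1 : Matrix (Fin a) (Fin a) ℂ)) * (A.map Complex.re).map Complex.ofRealHom) =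
        Complex.I • A := by
      ext j k
      simp only [Matrix.one_mul, Matrix.smul_mul, Matrix.add_apply, Matrix.smul_apply,
        Matrix.map_apply, Matrix.neg_apply, Complex.ofRealHom_eq_coe, smul_eq_mul]
      conv_rhs => rw [← Complex.re_add_im (A j k)]
      have := Complex.I_mul_I
      push_cast
      linear_combination (-(A j k).im : ℂ) * this
    rw [e1, e2]
    congr 1
    · simp
    · simp
    · simp only [Matrix.zero_mul, zero_add, Matrix.one_mul, Matrix.mul_one, Matrix.mul_zero,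
        add_zero]
      ext j k
      simp
    · ext j k
      simp only [Matrix.zero_mul, zero_add, Matrix.one_mul, Matrix.mul_one, Matrix.mul_neg,
        Matrix.mul_smul, Matrix.add_apply, Matrix.neg_apply, Matrix.smul_apply,
        Matrix.map_apply, Complex.ofRealHom_eq_coe, smul_eq_mul]
      apply Complex.ext <;> simp
  have h2 := congrArg Matrix.det h1
  rw [Matrix.det_mul, Matrix.det_mul, Matrix.det_fromBlocks_zero₂₁, Matrix.det_fromBlocks_zero₂₁,
    Matrix.det_fromBlocks_zero₁₂, Matrix.det_one, one_mul, one_mul, mul_one] at h2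
  have h3 : (A.map conj).det = conj A.det := (RingHom.map_det (starRingEnd ℂ) A).symm
  have h4 : ((rb A).map Complex.ofRealHom).det = (((rb A).det : ℝ) : ℂ) :=
    (RingHom.map_det Complex.ofRealHom (rb A)).symm
  rw [h3, h4, Complex.mul_conj, Complex.normSq_eq_norm_sq] at h2
  exact_mod_cast h2

section
variable {K K' : Type} [Group K] [Group K']

/-- the matrix of the periods -/
def pmx (M : Mark K (a + a)) (c : K → Fin a → ℂ) : Matrix (Fin a ⊕ Fin a) (Fin a ⊕ Fin a) ℝ :=
  Matrix.of fun (k l : Fin a ⊕ Fin a) => Sum.elim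
    (fun j => (c (M.g (finSumFinEquiv l)) j).re) (fun j => (c (M.g (finSumFinEquiv l)) j).im) k

theorem cov_eq (M : Mark K (a + a)) (c : K → Fin a → ℂ) : cov M c = |(pmx M c).det| := rfl

theorem pmx_lin (M : Mark K (a + a)) {c c₁ : K → Fin a → ℂ} (A : Matrix (Fin a) (Fin a) ℂ)
    (h : ∀ γ j, c₁ γ j = ∑ k, A j k * c γ k) : pmx M c₁ = rb A * pmx M c := by
  ext k l
  rw [Matrix.mul_apply, Fintype.sum_sum_type]
  rcases k with k | k
  · show (c₁ (M.g (finSumFinEquiv l)) k).re = _
    rw [h, Complex.re_sum, ← Finset.sum_add_distrib]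
    refine Finset.sum_congr rfl fun m _ => ?_
    show _ = (A k m).re * (c (M.g (finSumFinEquiv l)) m).re +
      (-(A k m).im) * (c (M.g (finSumFinEquiv l)) m).im
    rw [Complex.mul_re]
    ring
  · show (c₁ (M.g (finSumFinEquiv l)) k).im = _
    rw [h, Complex.im_sum, ← Finset.sum_add_distrib]
    refine Finset.sum_congr rfl fun m _ => ?_
    show _ = (A k m).im * (c (M.g (finSumFinEquiv l)) m).re +
      (A k m).re * (c (M.g (finSumFinEquiv l)) m).im
    rw [Complex.mul_im]
    ring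

/-- **a linear change of the 1-forms** -/
theorem cov_lin (M : Mark K (a + a)) {c c₁ : K → Fin a → ℂ} (A : Matrix (Fin a) (Fin a) ℂ)
    (h : ∀ γ j, c₁ γ j = ∑ k, A j k * c γ k) : cov M c₁ = ‖A.det‖ ^ 2 * cov M c := by
  rw [cov_eq, cov_eq, pmx_lin M A h, Matrix.det_mul, rb_det, abs_mul, abs_of_nonneg (by positivity)]

/-- **a change of the marking** -/
theorem cov_mark (M : Mark K (a + a)) (M' : Mark K' (a + a)) (ρ : K ≃* K') {c : K' → Fin a → ℂ}
    (hc : ∀ x y j, c (x * y) j = c x j + c y j) : cov M (fun γ => c (ρ γ)) = cov M' c := by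
  set N : Matrix (Fin (a + a)) (Fin (a + a)) ℤ := Matrix.of fun k l => M'.φ k (ρ (M.g l)) with hN
  set N' : Matrix (Fin (a + a)) (Fin (a + a)) ℤ :=
    Matrix.of fun k l => M.φ k (ρ.symm (M'.g l)) with hN'
  have h1 : N * N' = 1 := by
    ext k l
    rw [Matrix.mul_apply]
    have h2 := M.complete (fun γ => (M'.φ k (ρ γ) : ℝ)) (fun x y => by
      rw [map_mul, M'.hom]; push_cast; rfl) (ρ.symm (M'.g l))
    rw [ρ.apply_symm_apply] at h2
    have h3 : M'.φ k (M'.g l) = ∑ m, M'.φ k (ρ (M.g m)) * M.φ m (ρ.symm (M'.g l)) := by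
      exact_mod_cast h2
    show ∑ m, M'.φ k (ρ (M.g m)) * M.φ m (ρ.symm (M'.g l)) = _
    rw [← h3, M'.dual, Matrix.one_apply]
  have h4 : IsUnit N.det := IsUnit.of_mul_eq_one N'.det (by rw [← Matrix.det_mul, h1, Matrix.det_one])
  have h5 : |((N.det : ℤ) : ℝ)| = 1 := by
    rw [← Int.cast_abs, Int.isUnit_iff_abs_eq.1 h4, Int.cast_one]
  have h6 : pmx M (fun γ => c (ρ γ)) =
      pmx M' c * (N.map (Int.castRingHom ℝ)).submatrix finSumFinEquiv finSumFinEquiv := by
    have key : ∀ (l : Fin (a + a)) (j : Fin a), c (ρ (M.g l)) j =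
        ∑ k, (N k l : ℂ) * c (M'.g k) j := fun l j =>
      Mark.complex M' (c := fun γ => c γ j) (fun x y => hc x y j) (ρ (M.g l))
    ext k l
    rw [Matrix.mul_apply]
    have e1 : ∀ f : Fin (a + a) → ℝ, ∑ m : Fin a ⊕ Fin a, f (finSumFinEquiv m) = ∑ m, f m :=
      fun f => Equiv.sum_comp finSumFinEquiv f
    rcases k with k | k
    · show (c (ρ (M.g (finSumFinEquiv l))) k).re = ∑ m : Fin a ⊕ Fin a,
        (c (M'.g (finSumFinEquiv m)) k).re * ((N (finSumFinEquiv m) (finSumFinEquiv l) : ℤ) : ℝ)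
      rw [key, Complex.re_sum, e1 fun m => (c (M'.g m) k).re * ((N m (finSumFinEquiv l) : ℤ) : ℝ)]
      refine Finset.sum_congr rfl fun m _ => ?_
      simp [mul_comm]
    · show (c (ρ (M.g (finSumFinEquiv l))) k).im = ∑ m : Fin a ⊕ Fin a,
        (c (M'.g (finSumFinEquiv m)) k).im * ((N (finSumFinEquiv m) (finSumFinEquiv l) : ℤ) : ℝ)
      rw [key, Complex.im_sum, e1 fun m => (c (M'.g m) k).im * ((N m (finSumFinEquiv l) : ℤ) : ℝ)]
      refine Finset.sum_congr rfl fun m _ => ?_
      simp [mul_comm]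
  have h7 : ((N.map (Int.castRingHom ℝ)).submatrix finSumFinEquiv finSumFinEquiv).det =
      ((N.det : ℤ) : ℝ) := by
    rw [Matrix.det_submatrix_equiv_self]
    exact (RingHom.map_det (Int.castRingHom ℝ) N).symm
  rw [cov_eq, cov_eq, h6, Matrix.det_mul, abs_mul, h7, h5, mul_one]

end

end Vale.Agent.P281.H747.HKT
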