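import Vale.Agent.P281.H747.HKT.Val2
import Vale.Agent.P281.H191.HKT.Alt

/-!
# P281, T-HKT: products with `θ`, dependent rows (helper747)
-/

open Set Filter Metric MeasureTheory Equiv
open scoped Topology ContDiff ComplexConjugate ComplexOrder

noncomputable section

namespace Vale.Agent.P281.H747.HKT

open Vale.Agent.P281.H64.TK Vale.Agent.P281.H64.TK.TS Vale.Agent.P281.H83.HK
open Vale.Agent.P281.H64 (Cm)
open Vale.Agent.P281.H747.HK

section
variable {d : ℕ}

/-- the linear form `Σ v_k x_k` -/
def evl (v : Fin d → ℂ) : Cm d →L[ℂ] ℂ :=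
  LinearMap.toContinuousLinearMap
    { toFun := fun x => ∑ k, v k * x k
      map_add' := fun x y => by
        simp only [Pi.add_apply, mul_add, Finset.sum_add_distrib]
      map_smul' := fun c x => by
        simp only [Pi.smul_apply, smul_eq_mul, RingHom.id_apply, Finset.mul_sum]
        exact Finset.sum_congr rfl fun k _ => by ring }

theorem evl_apply (v : Fin d → ℂ) (x : Cm d) : evl v x = ∑ k, v k * x k := rfl

/-- the real part -/
def reL (v : Fin d → ℂ) : L1 d :=
  (Complex.ofRealCLM.comp Complex.reCLM).comp ((evl v).restrictScalars ℝ)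

/-- the imaginary part -/
def imL (v : Fin d → ℂ) : L1 d :=
  (Complex.ofRealCLM.comp Complex.imCLM).comp ((evl v).restrictScalars ℝ)

theorem reL_apply (v : Fin d → ℂ) (x : Cm d) : reL v x = ((∑ k, v k * x k).re : ℂ) := rfl

theorem imL_apply (v : Fin d → ℂ) (x : Cm d) : imL v x = ((∑ k, v k * x k).im : ℂ) := rfl

theorem th_dec (v : Fin d → ℂ) (x y : Cm d) :
    th v x y = reL v x * imL v y - reL v y * imL v x := by
  rw [th_apply, reL_apply, reL_apply, imL_apply, imL_apply]
  set A := ∑ k, v k * x k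
  set B := ∑ k, v k * y k
  apply Complex.ext
  · simp
    ring
  · simp
    ring

end

/-- **dependent rows** -/
theorem Wt_dep {m a : ℕ} (b : Fin m → L2 (m + a)) {U : Matrix (Fin a) (Fin (m + a)) ℂ}
    (hU : ¬ LinearIndependent ℂ U.row) : Wt b U = 0 := by
  classical
  obtain ⟨c, hc, j₀, hj₀⟩ := Fintype.not_linearIndependent_iff.1 hU
  set J : Finset (Fin (m + a)) := Finset.univ.filter fun i => m ≤ i.val with hJ
  have hJm : ∀ i : J, m ≤ i.1.val := fun i => (Finset.mem_filter.1 i.2).2
  let f : J → Fin a := fun i => ⟨i.1.val - m, by have := i.1.isLt; have := hJm i; omega⟩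
  have hf : ∀ i : J, Fin.natAdd m (f i) = i.1 := fun i => by
    apply Fin.ext
    simp only [Fin.val_natAdd, f]
    have := hJm i
    omega
  let g : Fin a → J := fun j => ⟨Fin.natAdd m j, Finset.mem_filter.2 ⟨Finset.mem_univ _, by simp⟩⟩
  have hgf : ∀ i, g (f i) = i := fun i => Subtype.ext (hf i)
  have hfg : ∀ j, f (g j) = j := fun j => by
    apply Fin.ext
    simp [f, g]
  set e : Fin a → ℂ := fun j => if j = j₀ then 0 else - c j / c j₀ with he
  -- the relation
  have hrel : ∀ x : Cm (m + a), ∑ k, U j₀ k * x k = ∑ j, e j * ∑ k, U j k * x k := by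
    intro x
    have h1 : ∑ j, c j * ∑ k, U j k * x k = 0 := by
      have h2 : ∀ k, ∑ j, c j * U j k = 0 := fun k => by
        have h3 := congrFun hc k
        simpa [Finset.sum_apply, Matrix.row] using h3
      calc ∑ j, c j * ∑ k, U j k * x k = ∑ k, (∑ j, c j * U j k) * x k := by
            simp only [Finset.mul_sum, Finset.sum_mul]
            rw [Finset.sum_comm]
            exact Finset.sum_congr rfl fun k _ => Finset.sum_congr rfl fun j _ => by ring
        _ = 0 := by simp [h2]
    have h4 : ∀ F : Fin a → ℂ, ∑ j, c j * F j = 0 → F j₀ = ∑ j, e j * F j := by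
      intro F hF
      have h5 : ∑ j, e j * F j = (-(∑ j, c j * F j) + c j₀ * F j₀) / c j₀ := by
        rw [eq_div_iff hj₀, Finset.sum_mul]
        rw [← Finset.sum_neg_distrib, ← Finset.add_sum_erase _ _ (Finset.mem_univ j₀),
          ← Finset.add_sum_erase Finset.univ (fun j => -(c j * F j)) (Finset.mem_univ j₀)]
        have h6 : ∑ j ∈ Finset.univ.erase j₀, e j * F j * c j₀ =
            ∑ j ∈ Finset.univ.erase j₀, -(c j * F j) := by
          refine Finset.sum_congr rfl fun j hj => ?_
          have h7 : j ≠ j₀ := Finset.ne_of_mem_erase hj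
          simp only [he, if_neg h7]
          field_simp
        rw [h6]
        simp only [he, if_true]
        ring
      rw [h5, hF, neg_zero, zero_add, mul_div_cancel_left₀ _ hj₀]
    exact h4 (fun j => ∑ k, U j k * x k) h1
  -- the 1-forms
  let l : J × Fin 2 → L1 (m + a) := fun p => if p.2 = 0 then reL (U (f p.1)) else imL (U (f p.1))
  let M : Matrix (J × Fin 2) (J × Fin 2) ℂ := fun p q =>
    if p = (g j₀, 0) then (if q.2 = 0 then ((e (f q.1)).re : ℂ) else -((e (f q.1)).im : ℂ))
      else if p = q then 1 else 0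
  have hM : M.det = 0 := by
    refine Matrix.det_eq_zero_of_column_eq_zero (g j₀, 0) fun p => ?_
    show (if p = (g j₀, 0) then _ else if p = (g j₀, 0) then (1 : ℂ) else 0) = 0
    by_cases hp : p = (g j₀, 0)
    · rw [if_pos hp, if_pos rfl, hfg]
      simp [he]
    · rw [if_neg hp, if_neg hp]
  have hl : ∀ p, l p = ∑ q, M p q • l q := by
    intro p
    by_cases hp : p = (g j₀, 0)
    · subst hp
      refine ContinuousLinearMap.ext fun x => ?_
      have h1 : ∀ q, M (g j₀, 0) q =
          (if q.2 = 0 then ((e (f q.1)).re : ℂ) else -((e (f q.1)).im : ℂ)) := fun q => if_pos rfl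
      rw [_root_.sum_apply, Fintype.sum_prod_type]
      simp only [h1, Fin.sum_univ_two, _root_.smul_apply, smul_eq_mul, l,
        Fin.isValue, one_ne_zero, if_false, if_true, hfg, reL_apply, imL_apply]
      have h2 : ∑ i : J, (((e (f i)).re : ℂ) * ((∑ k, U (f i) k * x k).re : ℂ) +
          -((e (f i)).im : ℂ) * ((∑ k, U (f i) k * x k).im : ℂ)) =
          ∑ j : Fin a, (((e j).re : ℂ) * ((∑ k, U j k * x k).re : ℂ) +
          -((e j).im : ℂ) * ((∑ k, U j k * x k).im : ℂ)) :=
        Fintype.sum_equiv ⟨f, g, hgf, hfg⟩ _ _ fun i => rfl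
      rw [h2, hrel x, Complex.re_sum]
      push_cast
      refine Finset.sum_congr rfl fun j _ => ?_
      rw [Complex.mul_re]
      push_cast
      ring
    · have h1 : ∀ q, M p q = if p = q then 1 else 0 := fun q => if_neg hp
      rw [Finset.sum_eq_single p]
      · rw [h1, if_pos rfl, one_smul]
      · intro q _ hq
        rw [h1, if_neg (Ne.symm hq)]
        exact ContinuousLinearMap.ext fun x => zero_mul (l q x)
      · intro h
        exact absurd (Finset.mem_univ _) h
  have hJn : ∀ (j : Fin (m + a)) (hj : j ∈ J) (x y : Cm (m + a)),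
      (Fin.append b fun j => th (U j)) j x y = l (⟨j, hj⟩, 0) x * l (⟨j, hj⟩, 1) y -
        l (⟨j, hj⟩, 0) y * l (⟨j, hj⟩, 1) x := by
    intro j hj x y
    have h1 : j = Fin.natAdd m (f ⟨j, hj⟩) := (hf ⟨j, hj⟩).symm
    have h2 : (Fin.append b fun j => th (U j)) j = th (U (f ⟨j, hj⟩)) := by
      conv_lhs => rw [h1]
      rw [Fin.append_right]
    rw [h2, th_dec]
    simp [l]
  have h := H191.HKT.W_subst J (Fin.append b fun j => th (U j)) (Fin.append b fun j => th (U j))
    l l M hl (fun _ _ => rfl) hJn hJn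
  rw [hM, zero_mul] at h
  exact h

theorem dtb_dep {a d : ℕ} {u : Matrix (Fin a) (Fin d) ℂ} (s : Matrix (Fin d) (Fin d) ℂ)
    (hU : ¬ LinearIndependent ℂ u.row) : dtb u s = 0 := by
  by_contra h
  exact hU (row_indep h)

end Vale.Agent.P281.H747.HKT
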