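import Vale.Agent.P281.H747.HKT.ValT
import Vale.Agent.P281.H83.HKT.Spec

/-!
# P281, T-HKT: `DetTStmt` and `ValTStmt` (helper747)
-/

open Set Filter Metric MeasureTheory Equiv
open scoped Topology ContDiff ComplexConjugate ComplexOrder

noncomputable section

namespace Vale.Agent.P281.H747.HKT

open Vale.Agent.P281.H64.TK Vale.Agent.P281.H64.TK.TS Vale.Agent.P281.H83.HK
open Vale.Agent.P281.H64 (Cm)
open Vale.Agent.P281.H747.HK
open Vale.Agent.P281.H83.HKT (dt uu thj lst W4 thl DetTStmt ValTStmt)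

theorem thl_eq0 {m a : ℕ} (u : Matrix (Fin a) (Fin (m + a)) ℂ)
    (x : Fin (m + a) → L2 (m + a)) :
    W (thl u x) = Wt (fun i : Fin m => x ⟨i.val + a, by omega⟩) u := by
  by_cases hz : 0 < m + a
  swap
  · rw [Wt]
    congr 1
    funext i
    exact absurd i.isLt (by omega)
  have h1 := (H864.HK.wLin (m + a) (thl u x) ⟨0, hz⟩ (x ⟨0, hz⟩) (x ⟨0, hz⟩) 0
    (pt m a)).2.2
  rw [← h1, Wt]
  congr 1
  funext i
  show thl u x (pt m a i) = Fin.append (fun i : Fin m => x ⟨i.val + a, by omega⟩)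
    (fun j => th (u j)) i
  refine Fin.addCases (fun k => ?_) (fun j => ?_) i
  · rw [Fin.append_left]
    have hv : (Fin.castAdd a k).val = k.val := rfl
    have h3 : pt m a (Fin.castAdd a k) = ⟨k.val + a, by omega⟩ := by
      show (if h : (Fin.castAdd a k).val < m then
          (⟨(Fin.castAdd a k).val + a, _⟩ : Fin (m + a)) else _) = _
      rw [dif_pos (by rw [hv]; exact k.isLt)]
      rfl
    rw [h3, thl, dif_neg (by simp)]
  · rw [Fin.append_right]
    have hv : (Fin.natAdd m j).val = m + j.val := rfl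
    have h3 : pt m a (Fin.natAdd m j) = ⟨j.val, by omega⟩ := by
      show (if h : (Fin.natAdd m j).val < m then _ else
        (⟨(Fin.natAdd m j).val - m, _⟩ : Fin (m + a))) = _
      rw [dif_neg (by rw [hv]; omega)]
      apply Fin.ext
      show (Fin.natAdd m j).val - m = j.val
      rw [hv]
      omega
    rw [h3, thl, dif_pos j.isLt]
    rfl

/-- **DET.** -/
theorem detTStmt : DetTStmt := by
  intro a d h
  obtain ⟨m, rfl⟩ : ∃ m, d = m + a := ⟨d - a, by omega⟩
  obtain ⟨κ, hκ, h1⟩ := Wt_det m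
  refine ⟨κ, hκ, fun u s hs => ?_⟩
  rw [thl_eq0]
  have h2 : (fun i : Fin m => if 2 * (((⟨i.val + a, by omega⟩ : Fin (m + a))).val - a) <
      m + a - a then tf s else cj (tf s)) =
      fun i : Fin m => if 2 * i.val < m then tf s else cj (tf s) := by
    funext i
    simp only [Nat.add_sub_cancel]
  rw [h2]
  by_cases hu : LinearIndependent ℂ u.row
  · exact h1 a u s hu hs
  · rw [Wt_dep _ hu, dt_eq, dtb_dep s hu, norm_zero, mul_zero, Complex.ofReal_zero]

/-- **VAL.** -/
theorem valTStmt : ValTStmt := by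
  intro a d u w s s' h hw hs hs'
  refine ⟨W4_tf_tf h u hs hs' hw, W4_tf_kf h u hs w hw, W4_pos h u hs hw, ?_, ?_⟩
  · obtain ⟨r, hr, h1, h2⟩ := W4_vol h u hw
    exact ⟨r, hr, h1, fun hne => h2 (row_indep_of_dt hne)⟩
  · intro m x j hj hx
    obtain ⟨n, rfl⟩ : ∃ n, d = n + a := ⟨d - a, by omega⟩
    have hjlt := j.isLt
    rw [thl_eq0]
    refine Wt_zero _ _ ⟨j.val - a, by omega⟩ fun p q hp _ => ?_
    have h3 : (⟨j.val - a + a, by omega⟩ : Fin (n + a)) = j := Fin.ext (by simp; omega)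
    show x ⟨j.val - a + a, _⟩ p q = 0
    rw [h3]
    rcases hx with hx | hx
    · rw [hx]
      exact tf_uu_zero m hp
    · rw [hx, cj_apply, tf_uu_zero m hp, map_zero]

end Vale.Agent.P281.H747.HKT
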