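import Vale.Agent.P281.H747.HK.WVal

/-!
# P281, T-HKT: products with `θ = ∏ (i/2) u_j ∧ conj u_j` (helper747)
-/

open Set Filter Metric MeasureTheory Equiv
open scoped Topology ContDiff ComplexConjugate ComplexOrder

noncomputable section

namespace Vale.Agent.P281.H747.HKT

open Vale.Agent.P281.H64.TK Vale.Agent.P281.H64.TK.TS Vale.Agent.P281.H83.HK
open Vale.Agent.P281.H64 (Cm)
open Vale.Agent.P281.H747.HK

section
variable {m : ℕ}

/-- the product with the form `Σ c_k dx_k ∧ dy_k` -/
theorem alt_lastc (c : Fin (m + 1) → ℂ)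
    (F : Fin (m + 1) → Fin (m + 1) × Fin 2 → Fin (m + 1) × Fin 2 → ℂ)
    (hF : ∀ p q, F (Fin.last m) p q = c p.1 * om p q) :
    Alt F = ∑ k : Fin (m + 1), c k * Alt fun i p q =>
      F i.castSucc (k.succAbove p.1, p.2) (k.succAbove q.1, q.2) := by
  unfold Alt
  have h1 : ∑ π : Perm (Fin (m + 1) × Fin 2),
      ((Perm.sign π : ℤ) : ℂ) * ∏ i, F i (π (i, 0)) (π (i, 1)) =
      ∑ x : Fin (m + 1) × Perm (Fin 2) × Perm (Fin m × Fin 2),
        ((Perm.sign (Th x) : ℤ) : ℂ) * ∏ i, F i (Th x (i, 0)) (Th x (i, 1)) := by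
    symm
    refine Finset.sum_of_injOn Th (fun x _ y _ h => Th_injective h) (fun _ _ => by simp) ?_ ?_
    · intro π _ hπ
      by_cases h : (π (Fin.last m, 0)).1 = (π (Fin.last m, 1)).1
      · obtain ⟨x, hx⟩ := exists_Th π h
        exact absurd ⟨x, by simp, hx⟩ hπ
      · rw [Fin.prod_univ_castSucc, hF, om, if_neg h, mul_zero, mul_zero, mul_zero]
    · intro x _; rfl
  have h2 : ∀ (k : Fin (m + 1)) (τ : Perm (Fin 2)) (ρ : Perm (Fin m × Fin 2)),
      ((Perm.sign (Th (k, τ, ρ)) : ℤ) : ℂ) *
        ∏ i, F i (Th (k, τ, ρ) (i, 0)) (Th (k, τ, ρ) (i, 1)) =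
      c k * (((Perm.sign ρ : ℤ) : ℂ) * ∏ i : Fin m,
        F i.castSucc (k.succAbove (ρ (i, 0)).1, (ρ (i, 0)).2)
        (k.succAbove (ρ (i, 1)).1, (ρ (i, 1)).2)) := by
    intro k τ ρ
    rw [Fin.prod_univ_castSucc, hF, sign_Th]
    simp only [Th_last, Th_cast]
    have h3 : om ((k, τ 0) : Fin (m + 1) × Fin 2) (k, τ 1) = ((Perm.sign τ : ℤ) : ℂ) := by
      rw [← perm_two τ, om, if_pos rfl]
      push_cast
      rfl
    rw [h3]
    have h4 : ((Perm.sign τ : ℤ) : ℂ) * ((Perm.sign τ : ℤ) : ℂ) = 1 := by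
      have := Int.units_mul_self (Perm.sign τ)
      rw [← Int.cast_mul, ← Units.val_mul, this]
      simp
    push_cast
    linear_combination c k * ((Perm.sign ρ : ℤ) : ℂ) * (∏ i : Fin m,
      F i.castSucc (k.succAbove (ρ (i, 0)).1, (ρ (i, 0)).2)
        (k.succAbove (ρ (i, 1)).1, (ρ (i, 1)).2)) * h4
  rw [h1, Fintype.sum_prod_type]
  simp only [Fintype.sum_prod_type, h2]
  simp only [Finset.sum_const, Finset.card_univ, Fintype.card_perm, Fintype.card_fin]
  rw [Finset.mul_sum]
  refine Finset.sum_congr rfl fun k _ => ?_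
  rw [← Finset.mul_sum, pow_succ]
  simp [Nat.factorial]
  ring

/-- the product with the standard forms of the last coordinates -/
theorem alt_tail : ∀ (a : ℕ)
    (F : Fin (m + a) → Fin (m + a) × Fin 2 → Fin (m + a) × Fin 2 → ℂ),
    (∀ (j : Fin a) p q, F (Fin.natAdd m j) p q = if p.1 = Fin.natAdd m j then om p q else 0) →
    Alt F = Alt fun (i : Fin m) p q =>
      F (Fin.castAdd a i) (Fin.castAdd a p.1, p.2) (Fin.castAdd a q.1, q.2)
  | 0, F, _ => rfl
  | a + 1, F, hF => by
    have h1 := alt_lastc (m := m + a) (fun k => if k = Fin.last (m + a) then 1 else 0) F (by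
      intro p q
      have h2 := hF (Fin.last a) p q
      have h3 : Fin.natAdd m (Fin.last a) = Fin.last (m + a) := rfl
      rw [h3] at h2
      rw [h2]
      split_ifs <;> simp)
    rw [Finset.sum_eq_single (Fin.last (m + a))] at h1
    · rw [if_pos rfl, one_mul] at h1
      rw [h1]
      rw [alt_tail a (fun i p q => F i.castSucc ((Fin.last (m + a)).succAbove p.1, p.2)
        ((Fin.last (m + a)).succAbove q.1, q.2)) ?_]
      · congr 1
        funext i p q
        rw [Fin.succAbove_last_apply, Fin.succAbove_last_apply]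
        rfl
      · intro j p q
        have h2 := hF j.castSucc ((Fin.last (m + a)).succAbove p.1, p.2)
          ((Fin.last (m + a)).succAbove q.1, q.2)
        have h3 : (Fin.natAdd m j).castSucc = Fin.natAdd m j.castSucc := rfl
        rw [h3, h2, Fin.succAbove_last_apply, Fin.succAbove_last_apply, ← h3]
        simp only [om, Fin.castSucc_inj]
    · intro k _ hk
      rw [if_neg hk, zero_mul]
    · intro h
      exact absurd (Finset.mem_univ _) h

end

/-- `(i/2) u ∧ conj u` -/
def th {d : ℕ} (u : Fin d → ℂ) : L2 d := kf (Matrix.of fun k l => u k * conj (u l))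

theorem th_apply {d : ℕ} (u : Fin d → ℂ) (x y : Cm d) :
    th u x y = Complex.I / 2 * ((∑ k, u k * x k) * conj (∑ k, u k * y k) -
      (∑ k, u k * y k) * conj (∑ k, u k * x k)) := by
  rw [th, kf_apply]
  congr 1
  simp only [Matrix.of_apply, map_sum, map_mul, Finset.sum_mul_sum, mul_sub,
    Finset.sum_sub_distrib]
  congr 1
  · refine Finset.sum_congr rfl fun j _ => Finset.sum_congr rfl fun k _ => ?_
    ring
  · refine Finset.sum_congr rfl fun j _ => Finset.sum_congr rfl fun k _ => ?_
    ring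

/-- `b_1 ∧ ... ∧ b_m ∧ θ_1 ∧ ... ∧ θ_a` -/
def Wt {m a : ℕ} (b : Fin m → L2 (m + a)) (U : Matrix (Fin a) (Fin (m + a)) ℂ) : ℂ :=
  W (Fin.append b fun j => th (U j))

/-- the inclusion of the first coordinates, followed by `G` -/
def ins {m a : ℕ} (G : Matrix (Fin (m + a)) (Fin (m + a)) ℂ) : Cm m →L[ℝ] Cm (m + a) :=
  LinearMap.toContinuousLinearMap
    { toFun := fun u => G.mulVec (Fin.append u 0)
      map_add' := by
        intro u v
        rw [← Matrix.mulVec_add]
        congr 1
        funext k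
        refine Fin.addCases (fun i => ?_) (fun i => ?_) k
        · simp [Fin.append_left]
        · simp [Fin.append_right]
      map_smul' := by
        intro c u
        rw [RingHom.id_apply, ← Matrix.mulVec_smul]
        congr 1
        funext k
        refine Fin.addCases (fun i => ?_) (fun i => ?_) k
        · simp [Fin.append_left]
        · simp [Fin.append_right] }

theorem ins_apply {m a : ℕ} (G : Matrix (Fin (m + a)) (Fin (m + a)) ℂ) (u : Cm m) :
    ins G u = G.mulVec (Fin.append u 0) := rfl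

theorem append_rb {m a : ℕ} (p : Fin m × Fin 2) :
    (Fin.append (rb p : Cm m) (0 : Cm a) : Cm (m + a)) = rb (Fin.castAdd a p.1, p.2) := by
  funext k
  refine Fin.addCases (fun i => ?_) (fun i => ?_) k
  · rw [Fin.append_left]
    simp only [rb, Pi.single_apply, Fin.castAdd_inj]
  · rw [Fin.append_right]
    simp only [rb, Pi.single_apply, Pi.zero_apply]
    rw [if_neg]
    intro h
    have := congrArg Fin.val h
    simp at this
    omega

/-- **Restriction to the kernel of `U`.** -/
theorem Wt_split {m a : ℕ} (b : Fin m → L2 (m + a)) (U : Matrix (Fin a) (Fin (m + a)) ℂ)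
    (G : Matrix (Fin (m + a)) (Fin (m + a)) ℂ)
    (hG : ∀ j k, (U * G) j k = if k = Fin.natAdd m j then 1 else 0) :
    Wt b U * ((‖G.det‖ ^ 2 : ℝ) : ℂ) =
      W fun i => (b i).bilinearComp (ins G) (ins G) := by
  set c : Fin (m + a) → L2 (m + a) := fun i =>
    (Fin.append b (fun j => th (U j)) i).bilinearComp (LJ G) (LJ G) with hc
  have h1 : W c = Wt b U * ((‖G.det‖ ^ 2 : ℝ) : ℂ) := by
    rw [Wt, W_wv, W_wv, H864.HK.W_pull (LJ G) (a' := Fin.append b (fun j => th (U j)))
      (fun i u v => rfl), LJ_det]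
  rw [← h1, W_alt, W_alt]
  rw [alt_tail a _ ?_]
  · congr 1
    funext i p q
    show c (Fin.castAdd a i) (rb (Fin.castAdd a p.1, p.2)) (rb (Fin.castAdd a q.1, q.2)) =
      (b i) (ins G (rb p)) (ins G (rb q))
    rw [hc]
    simp only [Fin.append_left, ContinuousLinearMap.bilinearComp_apply, ins_apply, append_rb]
    rfl
  · intro j p q
    show c (Fin.natAdd m j) (rb p) (rb q) = _
    rw [hc]
    simp only [Fin.append_right, ContinuousLinearMap.bilinearComp_apply]
    have h2 : ∀ x : Cm (m + a), ∑ k, U j k * (LJ G x) k = x (Fin.natAdd m j) := by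
      intro x
      have h3 : ∑ k, U j k * (LJ G x) k = (U.mulVec (G.mulVec x)) j := rfl
      rw [h3, Matrix.mulVec_mulVec]
      show ∑ k, (U * G) j k * x k = _
      rw [Finset.sum_eq_single (Fin.natAdd m j)]
      · rw [hG, if_pos rfl, one_mul]
      · intro k _ hk
        rw [hG, if_neg hk, zero_mul]
      · intro h
        exact absurd (Finset.mem_univ _) h
    rw [th_apply, h2, h2]
    obtain ⟨p1, p2⟩ := p
    obtain ⟨q1, q2⟩ := q
    simp only [rb, Pi.single_apply, om]
    by_cases hp : p1 = Fin.natAdd m j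
    · subst hp
      by_cases hq : Fin.natAdd m j = q1
      · subst hq
        fin_cases p2 <;> fin_cases q2 <;> simp
        · ring_nf; simp
        · ring_nf; simp
      · simp [hq]
    · simp [hp, Ne.symm hp]

end Vale.Agent.P281.H747.HKT
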