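import Vale.Agent.P281.H83.HKT.Spec
import Vale.Agent.P281.H747.HKT.Cov
import Vale.Agent.P281.H399.HKT.Lin
import Vale.Agent.P281.H399.HK.Cmp
import Vale.Agent.P281.H399.QT.Cmp
import Vale.Agent.P281.H191.HKT.Th

/-!
# P281, T-HKT: the class of `θ_1 ∧ ⋯ ∧ θ_a / κ` under an isomorphism (`ThCmpStmt`, helper747)
-/

open Set Filter Metric MeasureTheory Vale.Agent.P272.K
open scoped Topology ContDiff ComplexConjugate ComplexOrder

set_option linter.unusedSectionVars false

noncomputable section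

namespace Vale.Agent.P281.H747.HKT

open Vale.Agent.P281.H64 (Mark)
open Vale.Agent.P281.H64.TK Vale.Agent.P281.H64.TK.TS Vale.Agent.P281.H399.TS
open Vale.Agent.P281.H399.QT Vale.Agent.P281.H399.HK
open Vale.Agent.P281.H603.TE (Cmp)
open Vale.Agent.P281.H864.K (holCompat_symm add_compat)
open Vale.Agent.P281.H83.HK (W kf)
open Vale.Agent.P281.H83.HKT
open Vale.Agent.P281.H399.HKT (lU lU_app thj_app thl_mul)
open Vale.Agent.P281.H191.HKT (tl tT_eq tl_cl)
open Vale.Agent.P281.H864.HK (Wint wint_pull)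

variable {a d : ℕ}

theorem hol1_mul {E Γ : Type} [TopologicalSpace E] [Group Γ] [MulAction Γ E] {S : Sheets d E Γ}
    {u : Fin S.N → Cm d → Matrix (Fin a) (Fin d) ℂ} (hu : Hol1 S u)
    (g : Matrix (Fin a) (Fin a) ℂ) : Hol1 S (fun i z => g * u i z) where
  hol i j k := by
    have : (fun z => (g * u i z) j k) = fun z => ∑ m, g j m * u i z m k := by
      funext z
      rw [Matrix.mul_apply]
    rw [this]
    exact DifferentiableOn.fun_sum fun m _ => (hu.hol i m k).const_mul _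
  closed i z hz j k l := by
    have key : ∀ k l, dd k (fun z => (g * u i z) j l) z =
        ∑ m, g j m * dd k (fun z => u i z m l) z := by
      intro k l
      have h1 : ∀ m, DifferentiableAt ℂ (fun z => u i z m l) z := fun m =>
        (hu.hol i m l).differentiableAt (isOpen_ball.mem_nhds hz)
      have h2 : HasFDerivAt (fun z => ∑ m, g j m * u i z m l)
          (∑ m, g j m • fderiv ℂ (fun z => u i z m l) z) z :=
        HasFDerivAt.fun_sum fun m _ => (h1 m).hasFDerivAt.const_mul _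
      have h3 : (fun z => (g * u i z) j l) = fun z => ∑ m, g j m * u i z m l := by
        funext z
        rw [Matrix.mul_apply]
      show fderiv ℂ (fun z => (g * u i z) j l) z (Pi.single k 1) = _
      rw [h3, h2.fderiv, _root_.sum_apply]
      rfl
    rw [key, key]
    exact Finset.sum_congr rfl fun m _ => by rw [hu.closed i z hz m k l]
  change i j z hz z' hz' θ h1 h2 h3 := by
    show g * u i z = g * u j z' * _
    rw [hu.change i j z hz z' hz' θ h1 h2 h3, Matrix.mul_assoc]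

/-- the pull-back of `θ_j` -/
theorem thj_pull (u : Matrix (Fin a) (Fin d) ℂ) (J : Matrix (Fin d) (Fin d) ℂ) (j : Fin a)
    (v w : Cm d) : thj (u * J) j v w = thj u j (J.mulVec v) (J.mulVec w) := by
  have h1 : ∀ v, lU (u * J) j v = lU u j (J.mulVec v) := fun v => by
    rw [lU_app, lU_app]
    simp only [Matrix.mul_apply, Finset.sum_mul, Matrix.mulVec, dotProduct, Finset.mul_sum]
    rw [Finset.sum_comm]
    exact Finset.sum_congr rfl fun _ _ => Finset.sum_congr rfl fun _ _ => by ring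
  rw [thj_app, thj_app, h1, h1]

section
variable {E K E' K' : Type} [TopologicalSpace E] [Group K] [MulAction K E]
  [ContinuousConstSMul K E] [TopologicalSpace E'] [Group K'] [MulAction K' E']
  [ContinuousConstSMul K' E'] {S : Sheets d E K} {S' : Sheets d E' K'}
  {w : Fin S.N → Cm d → Matrix (Fin d) (Fin d) ℂ}
  {w' : Fin S'.N → Cm d → Matrix (Fin d) (Fin d) ℂ} {τ : E ≃ₜ E'} {ρ : K ≃* K'}
  {F : E → Fin a → ℂ} {F' : E' → Fin a → ℂ} {c' : K' → Fin a → ℂ}

/-- the chain rule along an isomorphism -/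
theorem dF_chain (h : Cmp S w S' w' τ ρ)
    (hF : ∀ j, DifferentiableOn ℂ (fun z => F (S.σ j z)) (ball 0 3))
    (hF' : ∀ k, Add S' (fun e => F' e k) (fun γ => c' γ k)) {A : Fin a → Fin a → ℂ} {b : Fin a → ℂ}
    (hA : ∀ e j, F' (τ e) j = ∑ k, A j k * F e k + b j) {i : Fin S.N} {j : Fin S'.N}
    {z z' : Cm d} (hz : z ∈ ball (0 : Cm d) 3) (hz' : z' ∈ ball (0 : Cm d) 3) {θ : Cm d → Cm d}
    (hθ : HTr (quo S) ((quo S').pull (qmap τ ρ h.eqv) (MulEquiv.refl One1) fun _ _ => rfl) i j z z'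
      θ) : Matrix.of A * dF S F i z = dF S' F' j z' * H64.TK.jac θ z := by
  have hc : ContinuousAt (S.σ i) z := (S.map_nhds i z hz).le
  obtain ⟨γ, h4⟩ := ev_lift (S'.pull τ ρ h.eqv) (a := S.σ i) (j := j) hc hz'
    hθ.an.continuousAt hθ.eq hθ.ev
  ext k l
  have hd : ∀ m, DifferentiableAt ℂ (fun z => F (S.σ i z) m) z := fun m =>
    (differentiableAt_pi.1 ((hF i).differentiableAt (isOpen_ball.mem_nhds hz))) m
  have h1 : HasFDerivAt (fun z => ∑ m, A k m * F (S.σ i z) m + b k)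
      (∑ m, A k m • fderiv ℂ (fun z => F (S.σ i z) m) z) z :=
    (HasFDerivAt.fun_sum fun m _ => (hd m).hasFDerivAt.const_mul _).add_const _
  have h2 : (Matrix.of A * dF S F i z) k l =
      fderiv ℂ (fun z => ∑ m, A k m * F (S.σ i z) m + b k) z (Pi.single l 1) := by
    rw [h1.fderiv, _root_.sum_apply, Matrix.mul_apply]
    rfl
  have h3 : (fun z => ∑ m, A k m * F (S.σ i z) m + b k) =ᶠ[𝓝 z]
      fun v => F' (S'.σ j (θ v)) k + c' (ρ γ) k := by
    filter_upwards [h4] with v hv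
    rw [← hA, hv]
    show F' (τ (γ • τ.symm (S'.σ j (θ v)))) k = _
    rw [h.eqv, τ.apply_symm_apply]
    exact (hF' k).add (ρ γ) _
  have h5 : DifferentiableAt ℂ (fun v => F' (S'.σ j v) k) z' :=
    ((hF' k).hol j).differentiableAt (isOpen_ball.mem_nhds hz')
  rw [h2, h3.fderiv_eq, fderiv_add_const, Matrix.mul_apply]
  exact dd_comp hθ.an hθ.eq h5 l

end

/-- **ThCmp**, for `a + 2 ≤ d` (the statement is false for `a > d`). -/
theorem thCmp (hC2 : C2Stmt) (hB : BasTStmt) :
    ∀ (d a : ℕ) (E K : Type) [TopologicalSpace E] [T2Space E] [SimplyConnectedSpace E] [Group K]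
      [MulAction K E] [ContinuousConstSMul K E] (S : Sheets d E K)
      (E' K' : Type) [TopologicalSpace E'] [T2Space E'] [SimplyConnectedSpace E'] [Group K']
      [MulAction K' E'] [ContinuousConstSMul K' E'] (S' : Sheets d E' K')
      (w : Fin S.N → Cm d → Matrix (Fin d) (Fin d) ℂ)
      (w' : Fin S'.N → Cm d → Matrix (Fin d) (Fin d) ℂ) (τ : E ≃ₜ E') (ρ : K ≃* K')
      (M : Mark K (a + a)) (M' : Mark K' (a + a)) (F : E → Fin a → ℂ) (c : K → Fin a → ℂ)
      (F' : E' → Fin a → ℂ) (c' : K' → Fin a → ℂ) (τ' : Qs K E ≃ₜ Qs K' E'), 0 < d → a ≤ d →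
      Kah S w → Kah S' w' → H603.TE.Cmp S w S' w' τ ρ → (∀ e, τ' (pj K e) = pj K' (τ e)) →
      IsBas S F c → IsBas S' F' c' →
      ThRel (quo S) (dF S F) (cov M c) (quo S') (dF S' F') (cov M' c') τ' := by
  intro d a E K _ _ _ _ _ _ S E' K' _ _ _ _ _ _ S' w w' τ ρ M M' F c F' c' τ' hd had hK hK' h hτ'
    hbas hbas' x x' hx hx' hp
  have hc2 := (hC2 d E K S w hd hK).2
  have hadd : ∀ j, Add S (fun e => F' (τ e) j) (fun γ => c' (ρ γ) j) :=
    fun j => add_compat (holCompat_symm h.hol) ((hbas'.add j).pull (hτ := h.eqv))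
  obtain ⟨A, b, hA, hAF⟩ := exists_linV hbas hc2 (F' := fun e => F' (τ e))
    (c' := fun γ => c' (ρ γ)) hadd
  obtain ⟨hu, -, -⟩ := hB d a E K S w M F c hd hK hbas
  obtain ⟨hu', -, -⟩ := hB d a E' K' S' w' M' F' c' hd hK' hbas'
  have hq : τ' = qmap τ ρ h.eqv := Homeomorph.ext fun m => by
    obtain ⟨e, rfl⟩ := pj_surj m
    rw [hτ' e]
    rfl
  subst hq
  have := t2_quo S
  have := t2_quo S'
  have hcq := cmp_quo h
  have hdif : Dif (quo S) (quo S') (qmap τ ρ h.eqv) := cmp_difd hcq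
  -- the integral
  have h1 : tT (quo S) (fun i z => Matrix.of A * dF S F i z) x = tT (quo S') (dF S' F') x' := by
    refine (tT_eq (S := quo S) _ x).trans (Eq.trans ?_ (tT_eq (S := quo S') (dF S' F') x').symm)
    refine wint_pull hd hdif (tl_cl (hol1_mul hu _) fun l _ => hx l) (tl_cl hu' fun l _ => hx' l)
      fun l => ?_
    unfold tl
    by_cases hl : l.val < a
    · rw [dif_pos hl, dif_pos hl]
      intro i j z hz z' hz' ψ hψ v v'
      obtain ⟨θ, h5, -, h7⟩ := cmp_tr hcq hz hz' hψ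
      have h8 := dF_chain h (fun j => differentiableOn_pi.2 fun m => (hbas.add m).hol j) hbas'.add
        hAF hz hz' h5
      show thj (Matrix.of A * dF S F i z) ⟨l.val, hl⟩ v v' = thj (dF S' F' j z') ⟨l.val, hl⟩ _ _
      rw [h8, thj_pull, h7, h7]
    · rw [dif_neg hl, dif_neg hl]
      exact hp l
  have h2 : tT (quo S) (fun i z => Matrix.of A * dF S F i z) x =
      ((‖(Matrix.of A).det‖ ^ 2 : ℝ) : ℂ) * tT (quo S) (dF S F) x := by
    unfold tT Sheets.int
    rw [Finset.mul_sum]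
    refine Finset.sum_congr rfl fun i _ => ?_
    rw [← integral_const_mul]
    exact integral_congr_ae (Filter.Eventually.of_forall fun z => thl_mul had _ _ _)
  -- the covolume
  have h3 : cov M' c' = ‖(Matrix.of A).det‖ ^ 2 * cov M c := by
    rw [← cov_lin M (Matrix.of A) (c₁ := fun γ => c' (ρ γ)) hA]
    exact (cov_mark M M' ρ fun p q j => (hbas'.add j).map_mul p q).symm
  rw [← h1, h2, h3]
  push_cast
  ring

/-- **TH2.** -/
theorem thCmpStmt (hC2 : C2Stmt) (hB : BasTStmt) : ThCmpStmt := by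
  intro d a E K _ _ _ _ _ _ S E' K' _ _ _ _ _ _ S' w w' τ ρ M M' F c F' c' τ' had hK hK' h hτ'
    hbas hbas'
  exact thCmp hC2 hB d a E K S E' K' S' w w' τ ρ M M' F c F' c' τ' (by omega) (by omega) hK hK' h
    hτ' hbas hbas'

end Vale.Agent.P281.H747.HKT
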