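import Vale.Agent.P281.H747.HKT.Tail
import Vale.Agent.P281.H747.HK.Pos
import Vale.Agent.P281.H638.HK.W4

/-!
# P281, T-HKT: values of the products with `θ` (helper747)
-/

open Set Filter Metric MeasureTheory Equiv
open scoped Topology ContDiff ComplexConjugate ComplexOrder

noncomputable section

namespace Vale.Agent.P281.H747.HKT

open Vale.Agent.P281.H64.TK Vale.Agent.P281.H64.TK.TS Vale.Agent.P281.H83.HK
open Vale.Agent.P281.H64 (Cm)
open Vale.Agent.P281.H747.HK

/-! ### The bordered determinant -/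

/-- The bordered determinant of `s` and `u`. -/
def dtb {a d : ℕ} (u : Matrix (Fin a) (Fin d) ℂ) (s : Matrix (Fin d) (Fin d) ℂ) : ℂ :=
  (Matrix.fromBlocks s u.transpose (-u) 0).det

theorem dtb_pull {a d : ℕ} (u : Matrix (Fin a) (Fin d) ℂ) (s G : Matrix (Fin d) (Fin d) ℂ) :
    dtb (u * G) (G.transpose * s * G) = dtb u s * G.det ^ 2 := by
  have h1 : Matrix.fromBlocks (G.transpose * s * G) (u * G).transpose (-(u * G)) 0 =
      (Matrix.fromBlocks G 0 0 (1 : Matrix (Fin a) (Fin a) ℂ)).transpose *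
        Matrix.fromBlocks s u.transpose (-u) 0 *
          Matrix.fromBlocks G 0 0 (1 : Matrix (Fin a) (Fin a) ℂ) := by
    rw [Matrix.fromBlocks_transpose, Matrix.fromBlocks_multiply, Matrix.fromBlocks_multiply]
    simp [Matrix.transpose_mul]
  rw [dtb, h1, Matrix.det_mul, Matrix.det_mul, Matrix.det_transpose, Matrix.det_fromBlocks_zero₂₁,
    Matrix.det_one, mul_one, dtb]
  ring

theorem norm_det_J {a : ℕ} (B : Matrix (Fin a) (Fin a) ℂ) :
    ‖(Matrix.fromBlocks B (1 : Matrix (Fin a) (Fin a) ℂ) (-(1 : Matrix (Fin a) (Fin a) ℂ))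
      (0 : Matrix (Fin a) (Fin a) ℂ)).det‖ = 1 := by
  have h1 : Matrix.fromBlocks B (1 : Matrix (Fin a) (Fin a) ℂ) (-(1 : Matrix (Fin a) (Fin a) ℂ))
      (0 : Matrix (Fin a) (Fin a) ℂ) =
      Matrix.fromBlocks (1 : Matrix (Fin a) (Fin a) ℂ) (-B) 0 (1 : Matrix (Fin a) (Fin a) ℂ) *
        Matrix.fromBlocks (0 : Matrix (Fin a) (Fin a) ℂ) (1 : Matrix (Fin a) (Fin a) ℂ)
          (-(1 : Matrix (Fin a) (Fin a) ℂ)) 0 := by
    rw [Matrix.fromBlocks_multiply]
    simp
  have h2 : Matrix.fromBlocks (0 : Matrix (Fin a) (Fin a) ℂ) (1 : Matrix (Fin a) (Fin a) ℂ)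
      (-(1 : Matrix (Fin a) (Fin a) ℂ)) (0 : Matrix (Fin a) (Fin a) ℂ) *
      Matrix.fromBlocks (0 : Matrix (Fin a) (Fin a) ℂ) (1 : Matrix (Fin a) (Fin a) ℂ)
      (-(1 : Matrix (Fin a) (Fin a) ℂ)) (0 : Matrix (Fin a) (Fin a) ℂ) = -1 := by
    rw [Matrix.fromBlocks_multiply, ← Matrix.fromBlocks_one, Matrix.fromBlocks_neg]
    simp
  have h3 := congrArg (fun M => ‖Matrix.det M‖) h2
  simp only [Matrix.det_mul, Matrix.det_neg, Matrix.det_one, norm_mul, norm_pow, norm_neg,
    norm_one, one_pow, mul_one] at h3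
  rw [h1, Matrix.det_mul, Matrix.det_fromBlocks_zero₂₁, Matrix.det_one, one_mul, one_mul]
  have h4 : 0 ≤ ‖(Matrix.fromBlocks (0 : Matrix (Fin a) (Fin a) ℂ)
      (1 : Matrix (Fin a) (Fin a) ℂ) (-(1 : Matrix (Fin a) (Fin a) ℂ))
      (0 : Matrix (Fin a) (Fin a) ℂ)).det‖ := norm_nonneg _
  nlinarith

/-- The first columns of `G`. -/
def lft {m a : ℕ} (G : Matrix (Fin (m + a)) (Fin (m + a)) ℂ) : Matrix (Fin (m + a)) (Fin m) ℂ :=
  G.submatrix id (Fin.castAdd a)

theorem norm_dtb_std {m a : ℕ} (u : Matrix (Fin a) (Fin (m + a)) ℂ)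
    (s : Matrix (Fin (m + a)) (Fin (m + a)) ℂ)
    (hu : ∀ j k, u j k = if k = Fin.natAdd m j then 1 else 0) :
    ‖dtb u s‖ = ‖(s.submatrix (Fin.castAdd a) (Fin.castAdd a)).det‖ := by
  set S11 := s.submatrix (Fin.castAdd a : Fin m → _) (Fin.castAdd a : Fin m → _) with h11
  set S12 := s.submatrix (Fin.castAdd a : Fin m → _) (Fin.natAdd m : Fin a → _) with h12
  set S21 := s.submatrix (Fin.natAdd m : Fin a → _) (Fin.castAdd a : Fin m → _) with h21
  set S22 := s.submatrix (Fin.natAdd m : Fin a → _) (Fin.natAdd m : Fin a → _) with h22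
  set e : Fin m ⊕ (Fin a ⊕ Fin a) ≃ Fin (m + a) ⊕ Fin a :=
    (Equiv.sumAssoc _ _ _).symm.trans (Equiv.sumCongr finSumFinEquiv (Equiv.refl _)) with he
  have h1 : (Matrix.fromBlocks s u.transpose (-u) 0).submatrix e e =
      Matrix.fromBlocks S11 (Matrix.fromCols S12 0) (Matrix.fromRows S21 0)
        (Matrix.fromBlocks S22 1 (-1) 0) := by
    ext i j
    have hne : ∀ (i : Fin m) (j : Fin a), Fin.castAdd a i ≠ Fin.natAdd m j := by
      intro i j h
      have := congrArg Fin.val h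
      simp at this
      omega
    rcases i with i | i | i <;> rcases j with j | j | j <;>
      simp [he, h11, h12, h21, h22, hu, Matrix.one_apply, hne, eq_comm]
  have hD1 : Matrix.fromBlocks S22 (1 : Matrix (Fin a) (Fin a) ℂ) (-1) 0 *
      Matrix.fromBlocks 0 (-1) (1 : Matrix (Fin a) (Fin a) ℂ) S22 = 1 := by
    rw [Matrix.fromBlocks_multiply, ← Matrix.fromBlocks_one]
    simp
  have hD2 : Matrix.fromBlocks 0 (-1) (1 : Matrix (Fin a) (Fin a) ℂ) S22 *
      Matrix.fromBlocks S22 (1 : Matrix (Fin a) (Fin a) ℂ) (-1) 0 = 1 := by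
    rw [Matrix.fromBlocks_multiply, ← Matrix.fromBlocks_one]
    simp
  let _ : Invertible (Matrix.fromBlocks S22 (1 : Matrix (Fin a) (Fin a) ℂ) (-1) 0) :=
    ⟨Matrix.fromBlocks 0 (-1) (1 : Matrix (Fin a) (Fin a) ℂ) S22, hD2, hD1⟩
  have hinv : ⅟(Matrix.fromBlocks S22 (1 : Matrix (Fin a) (Fin a) ℂ) (-1) 0) =
      Matrix.fromBlocks 0 (-1) (1 : Matrix (Fin a) (Fin a) ℂ) S22 := rfl
  have h2 := Matrix.det_fromBlocks₂₂ S11 (Matrix.fromCols S12 0) (Matrix.fromRows S21 0)
    (Matrix.fromBlocks S22 (1 : Matrix (Fin a) (Fin a) ℂ) (-1) 0)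
  have h3 : (S12.fromCols (0 : Matrix (Fin m) (Fin a) ℂ) : Matrix (Fin m) (Fin a ⊕ Fin a) ℂ) *
      (Matrix.fromBlocks 0 (-1) (1 : Matrix (Fin a) (Fin a) ℂ) S22 :
        Matrix (Fin a ⊕ Fin a) (Fin a ⊕ Fin a) ℂ) = Matrix.fromCols 0 (-S12) := by
    rw [Matrix.fromCols_mul_fromBlocks]
    simp
  rw [hinv, h3, Matrix.fromCols_mul_fromRows, Matrix.zero_mul, Matrix.mul_zero, add_zero,
    sub_zero] at h2
  show ‖(Matrix.fromBlocks s u.transpose (-u) 0).det‖ = _
  rw [← Matrix.det_submatrix_equiv_self e, h1, h2, norm_mul, norm_det_J, one_mul]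

/-! ### A frame adapted to `u` -/

theorem exists_G {m a : ℕ} {u : Matrix (Fin a) (Fin (m + a)) ℂ} (hu : LinearIndependent ℂ u.row) :
    ∃ G : Matrix (Fin (m + a)) (Fin (m + a)) ℂ, G.det ≠ 0 ∧
      ∀ j k, (u * G) j k = if k = Fin.natAdd m j then 1 else 0 := by
  have hrk : Module.finrank ℂ (LinearMap.range u.mulVecLin) = a := by
    have h1 := hu.rank_matrix
    rw [Fintype.card_fin] at h1
    exact h1
  have hsurj : Function.Surjective u.mulVec := by
    have h1 : LinearMap.range u.mulVecLin = ⊤ := by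
      apply Submodule.eq_top_of_finrank_eq
      rw [hrk, Module.finrank_fin_fun]
    exact LinearMap.range_eq_top.1 h1
  have hker : Module.finrank ℂ (LinearMap.ker u.mulVecLin) = m := by
    have h1 := LinearMap.finrank_range_add_finrank_ker u.mulVecLin
    rw [hrk, Module.finrank_fin_fun] at h1
    omega
  let b : Module.Basis (Fin m) ℂ (LinearMap.ker u.mulVecLin) := Module.finBasisOfFinrankEq ℂ _ hker
  choose R hR using fun j : Fin a => hsurj (Pi.single j 1)
  set G : Matrix (Fin (m + a)) (Fin (m + a)) ℂ := Matrix.of fun k c =>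
    Fin.addCases (fun i => (b i : Fin (m + a) → ℂ) k) (fun j => R j k) c with hG
  have hGl : ∀ k i, G k (Fin.castAdd a i) = (b i : Fin (m + a) → ℂ) k := fun k i => by
    rw [hG, Matrix.of_apply, Fin.addCases_left]
  have hGr : ∀ k j, G k (Fin.natAdd m j) = R j k := fun k j => by
    rw [hG, Matrix.of_apply, Fin.addCases_right]
  have hb : ∀ i, u.mulVec (b i : Fin (m + a) → ℂ) = 0 := fun i => LinearMap.mem_ker.1 (b i).2
  have huG : ∀ j k, (u * G) j k = if k = Fin.natAdd m j then 1 else 0 := by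
    intro j k
    rw [Matrix.mul_apply]
    refine Fin.addCases (fun i => ?_) (fun j' => ?_) k
    · have h1 := congrFun (hb i) j
      have hne : Fin.castAdd a i ≠ Fin.natAdd m j := by
        intro h
        have := congrArg Fin.val h
        simp at this
        omega
      rw [if_neg hne]
      simp only [hGl]
      exact h1
    · have h1 := congrFun (hR j') j
      simp only [hGr]
      have h2 : ∑ l, u j l * R j' l = (u.mulVec (R j')) j := rfl
      rw [h2, h1, Pi.single_apply]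
      simp only [Fin.natAdd_inj, eq_comm]
  refine ⟨G, ?_, huG⟩
  intro hdet
  obtain ⟨v, hv0, hv⟩ := Matrix.exists_mulVec_eq_zero_iff.mpr hdet
  have hvr : ∀ j, v (Fin.natAdd m j) = 0 := by
    intro j
    have h1 : ((u * G).mulVec v) j = 0 := by
      rw [← Matrix.mulVec_mulVec, hv, Matrix.mulVec_zero]
      rfl
    have h2 : ((u * G).mulVec v) j = ∑ k, (u * G) j k * v k := rfl
    rw [h2, Finset.sum_eq_single (Fin.natAdd m j)] at h1
    · rwa [huG, if_pos rfl, one_mul] at h1
    · intro k _ hk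
      rw [huG, if_neg hk, zero_mul]
    · intro h
      exact absurd (Finset.mem_univ _) h
  have hvl : ∑ i, v (Fin.castAdd a i) • b i = 0 := by
    apply Subtype.ext
    rw [Submodule.coe_sum]
    funext k
    have h1 := congrFun hv k
    have h2 : (G.mulVec v) k = ∑ c, G k c * v c := rfl
    rw [h2, Fin.sum_univ_add] at h1
    simp only [hGl, hvr, mul_zero, Finset.sum_const_zero, add_zero] at h1
    rw [Finset.sum_apply]
    show ∑ i, v (Fin.castAdd a i) * (b i : Fin (m + a) → ℂ) k = 0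
    rw [Pi.zero_apply] at h1
    rw [← h1]
    exact Finset.sum_congr rfl fun i _ => mul_comm _ _
  have h3 := Fintype.linearIndependent_iff.1 b.linearIndependent _ hvl
  apply hv0
  funext k
  refine Fin.addCases (fun i => ?_) (fun j => ?_) k
  · exact h3 i
  · exact hvr j

theorem row_indep {a d : ℕ} {u : Matrix (Fin a) (Fin d) ℂ} {s : Matrix (Fin d) (Fin d) ℂ}
    (h : dtb u s ≠ 0) : LinearIndependent ℂ u.row := by
  have key : Function.Injective u.vecMulLinear := by
    rw [injective_iff_map_eq_zero (Matrix.vecMulLinear u)]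
    intro c hc
    by_contra hne
    apply h
    show (Matrix.fromBlocks s u.transpose (-u) 0).det = 0
    rw [← Matrix.exists_vecMul_eq_zero_iff]
    refine ⟨Sum.elim 0 c, ?_, ?_⟩
    · intro h0
      apply hne
      funext j
      exact congrFun h0 (Sum.inr j)
    · rw [Matrix.vecMul_fromBlocks]
      have hc' : Matrix.vecMul c u = 0 := hc
      funext k
      rcases k with k | k
      · simp [Matrix.vecMul_neg, hc']
      · simp
  exact Matrix.vecMul_injective_iff.1 key

end Vale.Agent.P281.H747.HKT
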