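import Vale.Agent.P281.H747.HKT.Val
import Vale.Agent.P281.H864.HK.Plug

/-!
# P281, T-HKT: values of the products with `θ`, second part (helper747)
-/

open Set Filter Metric MeasureTheory Equiv
open scoped Topology ContDiff ComplexConjugate ComplexOrder

noncomputable section

namespace Vale.Agent.P281.H747.HKT

open Vale.Agent.P281.H64.TK Vale.Agent.P281.H64.TK.TS Vale.Agent.P281.H83.HK
open Vale.Agent.P281.H64 (Cm)
open Vale.Agent.P281.H747.HK

/-! ### Rectangular pull-backs -/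

theorem sum_pullr {m d : ℕ} (J K : Matrix (Fin d) (Fin m) ℂ) (s : Matrix (Fin d) (Fin d) ℂ)
    (u v : Fin m → ℂ) :
    ∑ j, ∑ k, (J.transpose * s * K) j k * (u j * v k) =
      ∑ j, ∑ k, s j k * (J.mulVec u j * K.mulVec v k) := by
  have h1 : ∀ (A : Matrix (Fin d) (Fin d) ℂ) (u v : Fin d → ℂ),
      ∑ j, ∑ k, A j k * (u j * v k) = u ⬝ᵥ A.mulVec v := by
    intro A u v
    simp only [dotProduct, Matrix.mulVec, Finset.mul_sum]
    exact Finset.sum_congr rfl fun j _ => Finset.sum_congr rfl fun k _ => by ring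
  have h2 : ∀ (A : Matrix (Fin m) (Fin m) ℂ) (u v : Fin m → ℂ),
      ∑ j, ∑ k, A j k * (u j * v k) = u ⬝ᵥ A.mulVec v := by
    intro A u v
    simp only [dotProduct, Matrix.mulVec, Finset.mul_sum]
    exact Finset.sum_congr rfl fun j _ => Finset.sum_congr rfl fun k _ => by ring
  rw [h2, h1, ← Matrix.mulVec_mulVec, ← Matrix.mulVec_mulVec, Matrix.dotProduct_mulVec,
    Matrix.vecMul_transpose]

theorem tf_pullr {m d : ℕ} (J : Matrix (Fin d) (Fin m) ℂ) (s : Matrix (Fin d) (Fin d) ℂ)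
    (u v : Cm m) : tf (J.transpose * s * J) u v = tf s (J.mulVec u) (J.mulVec v) := by
  rw [tf_apply, tf_apply, sum_pullr]

theorem kf_pullr {m d : ℕ} (J : Matrix (Fin d) (Fin m) ℂ) (w : Matrix (Fin d) (Fin d) ℂ)
    (u v : Cm m) : kf (J.transpose * w * J.map conj) u v = kf w (J.mulVec u) (J.mulVec v) := by
  have h0 : ∀ v : Cm m, (fun k => conj ((J.mulVec v) k)) = (J.map conj).mulVec fun k => conj (v k) := by
    intro v
    funext k
    simp only [Matrix.mulVec, dotProduct, map_sum, map_mul, Matrix.map_apply]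
  have h1 : ∀ (n : ℕ) (A : Matrix (Fin n) (Fin n) ℂ) (u v : Cm n),
      kf A u v = Complex.I / 2 * (∑ j, ∑ k, A j k * (u j * conj (v k)) -
        ∑ j, ∑ k, A j k * (v j * conj (u k))) := by
    intro n A u v
    rw [kf_apply]
    simp only [mul_sub, Finset.sum_sub_distrib]
  rw [h1, h1, sum_pullr J (J.map conj) w u fun k => conj (v k),
    sum_pullr J (J.map conj) w v fun k => conj (u k), ← h0, ← h0]

theorem posDef_pullr {m d : ℕ} {J : Matrix (Fin d) (Fin m) ℂ} {w : Matrix (Fin d) (Fin d) ℂ}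
    (hw : w.PosDef) (hJ : ∀ v, J.mulVec v = 0 → v = 0) :
    (J.transpose * w * J.map conj).PosDef := by
  have h1 : J.transpose = (J.map conj).conjTranspose := by
    ext i j
    simp
  rw [h1]
  refine hw.conjTranspose_mul_mul_same ?_
  intro x y hxy
  have h2 : (J.map conj).mulVec (x - y) = 0 := by
    rw [Matrix.mulVec_sub]
    exact sub_eq_zero.2 hxy
  have h3 : J.mulVec (fun k => conj ((x - y) k)) = 0 := by
    funext k
    have h4 := congrArg conj (congrFun h2 k)
    simp only [Matrix.mulVec, dotProduct, map_sum, map_mul, Matrix.map_apply, Complex.conj_conj,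
      Pi.zero_apply, map_zero] at h4 ⊢
    exact h4
  have h4 := hJ _ h3
  funext k
  have h5 := congrArg conj (congrFun h4 k)
  simp only [Complex.conj_conj, Pi.zero_apply, map_zero, Pi.sub_apply] at h5
  exact sub_eq_zero.1 h5

/-! ### Restriction to the kernel of `u` -/

/-- `(x, y, c, ..., c)` -/
def abcm {m d : ℕ} (x y c : L2 d) (i : Fin m) : L2 d :=
  if i.val = 0 then x else if i.val = 1 then y else c

theorem exists_restr {m a : ℕ} {u : Matrix (Fin a) (Fin (m + a)) ℂ}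
    (hu : LinearIndependent ℂ u.row) :
    ∃ (J : Matrix (Fin (m + a)) (Fin m) ℂ) (κ : ℝ), 0 < κ ∧ u * J = 0 ∧
      (∀ v, J.mulVec v = 0 → v = 0) ∧ (∀ x, u.mulVec x = 0 → ∃ v, J.mulVec v = x) ∧
      (∀ (b : Fin m → L2 (m + a)) (b' : Fin m → L2 m),
        (∀ i p q, b' i p q = b i (J.mulVec p) (J.mulVec q)) → Wt b u * (κ : ℂ) = W b') ∧
      ∀ s, ‖dtb u s‖ * κ = ‖(J.transpose * s * J).det‖ := by
  obtain ⟨G, hG0, hG⟩ := exists_G hu
  set J := lft G with hJ
  have hJi : ∀ v, J.mulVec v = G.mulVec (Fin.append v 0) := by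
    intro v
    funext k
    have h1 : (G.mulVec (Fin.append v 0)) k = ∑ c, G k c * (Fin.append v (0 : Cm a)) c := rfl
    rw [h1, Fin.sum_univ_add]
    simp only [Fin.append_left, Fin.append_right, Pi.zero_apply, mul_zero, Finset.sum_const_zero,
      add_zero]
    rfl
  have hGi : ∀ x, G.mulVec x = 0 → x = 0 := by
    intro x hx
    by_contra hne
    exact hG0 (Matrix.exists_mulVec_eq_zero_iff.mp ⟨x, hne, hx⟩)
  have hz : ∀ (x : Fin (m + a) → ℂ) (j : Fin a), ((u * G).mulVec x) j = x (Fin.natAdd m j) := by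
    intro x j
    have h2 : ((u * G).mulVec x) j = ∑ k, (u * G) j k * x k := rfl
    rw [h2, Finset.sum_eq_single (Fin.natAdd m j)]
    · rw [hG, if_pos rfl, one_mul]
    · intro k _ hk
      rw [hG, if_neg hk, zero_mul]
    · intro h
      exact absurd (Finset.mem_univ _) h
  refine ⟨J, ‖G.det‖ ^ 2, pow_pos (norm_pos_iff.2 hG0) 2, ?_, ?_, ?_, ?_, ?_⟩
  · ext j i
    have h1 : (u * J) j i = (u * G) j (Fin.castAdd a i) := rfl
    rw [h1, hG, if_neg, Matrix.zero_apply]
    intro h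
    have := congrArg Fin.val h
    simp at this
    omega
  · intro v hv
    rw [hJi] at hv
    have h1 := hGi _ hv
    funext i
    have h2 := congrFun h1 (Fin.castAdd a i)
    rwa [Fin.append_left] at h2
  · intro x hx
    have hdet : IsUnit G.det := isUnit_iff_ne_zero.2 hG0
    refine ⟨fun i => (G⁻¹.mulVec x) (Fin.castAdd a i), ?_⟩
    rw [hJi]
    have h1 : (Fin.append (fun i => (G⁻¹.mulVec x) (Fin.castAdd a i)) (0 : Cm a) :
        Fin (m + a) → ℂ) = G⁻¹.mulVec x := by
      funext k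
      refine Fin.addCases (fun i => ?_) (fun j => ?_) k
      · rw [Fin.append_left]
      · rw [Fin.append_right, ← hz (G⁻¹.mulVec x) j, Matrix.mulVec_mulVec, Matrix.mul_assoc,
          Matrix.mul_nonsing_inv _ hdet, Matrix.mul_one, hx]
    rw [h1, Matrix.mulVec_mulVec, Matrix.mul_nonsing_inv _ hdet, Matrix.one_mulVec]
  · intro b b' hb
    rw [Wt_split b u G hG]
    congr 1
    funext i
    refine ContinuousLinearMap.ext fun p => ContinuousLinearMap.ext fun q => ?_
    rw [hb, ContinuousLinearMap.bilinearComp_apply, ins_apply, ins_apply, hJi, hJi]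
  · intro s
    have h1 := norm_dtb_std (u * G) (G.transpose * s * G) hG
    rw [dtb_pull, norm_mul, norm_pow] at h1
    rw [h1]
    rfl

/-- the values in dimension `m` -/
theorem exists_restr3 {m a : ℕ} {u : Matrix (Fin a) (Fin (m + a)) ℂ}
    (hu : LinearIndependent ℂ u.row) :
    ∃ (J : Matrix (Fin (m + a)) (Fin m) ℂ) (κ : ℝ), 0 < κ ∧ u * J = 0 ∧
      (∀ v, J.mulVec v = 0 → v = 0) ∧ (∀ x, u.mulVec x = 0 → ∃ v, J.mulVec v = x) ∧
      (∀ (x y c : L2 (m + a)) (x' y' c' : L2 m), (∀ p q, x' p q = x (J.mulVec p) (J.mulVec q)) →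
        (∀ p q, y' p q = y (J.mulVec p) (J.mulVec q)) →
        (∀ p q, c' p q = c (J.mulVec p) (J.mulVec q)) →
        Wt (abcm x y c) u * (κ : ℂ) = W3 x' y' c') ∧
      ∀ s, ‖dtb u s‖ * κ = ‖(J.transpose * s * J).det‖ := by
  obtain ⟨J, κ, h1, h2, h3, h4, h5, h6⟩ := exists_restr hu
  refine ⟨J, κ, h1, h2, h3, h4, fun x y c x' y' c' hx hy hc => ?_, h6⟩
  refine h5 (abcm x y c) (abc x' y' c') fun i p q => ?_
  unfold abc abcm
  split_ifs
  · exact hx p q
  · exact hy p q
  · exact hc p q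

section vals
variable {m a : ℕ} {u : Matrix (Fin a) (Fin (m + 2 + a)) ℂ}
  {s s' w : Matrix (Fin (m + 2 + a)) (Fin (m + 2 + a)) ℂ}

theorem skewr {m d : ℕ} {J : Matrix (Fin d) (Fin m) ℂ} {s : Matrix (Fin d) (Fin d) ℂ}
    (hs : s.transpose = -s) : (J.transpose * s * J).transpose = -(J.transpose * s * J) := by
  rw [Matrix.transpose_mul, Matrix.transpose_mul, Matrix.transpose_transpose, hs]
  simp only [Matrix.mul_assoc, Matrix.neg_mul, Matrix.mul_neg]

/-- (2,0), (2,0) -/
theorem Wt_tf_tf (hu : LinearIndependent ℂ u.row) (hs : s.transpose = -s)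
    (hs' : s'.transpose = -s') (hw : w.PosDef) :
    Wt (m := m + 2) (abcm (tf s) (tf s') (kf w)) u = 0 := by
  obtain ⟨J, κ, hκ, -, hJ, -, h, -⟩ := exists_restr3 hu
  have h1 := h (tf s) (tf s') (kf w) (tf (J.transpose * s * J)) (tf (J.transpose * s' * J))
    (kf (J.transpose * w * J.map conj)) (fun p q => tf_pullr J s p q)
    (fun p q => tf_pullr J s' p q) (fun p q => kf_pullr J w p q)
  rw [W3_tf_tf (skewr hs) (skewr hs') (posDef_pullr hw hJ)] at h1
  exact (mul_eq_zero.1 h1).resolve_right (by exact_mod_cast hκ.ne')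

/-- (2,0), (1,1) -/
theorem Wt_tf_kf (hu : LinearIndependent ℂ u.row) (hs : s.transpose = -s)
    (H : Matrix (Fin (m + 2 + a)) (Fin (m + 2 + a)) ℂ) (hw : w.PosDef) :
    Wt (m := m + 2) (abcm (tf s) (kf H) (kf w)) u = 0 := by
  obtain ⟨J, κ, hκ, -, hJ, -, h, -⟩ := exists_restr3 hu
  have h1 := h (tf s) (kf H) (kf w) (tf (J.transpose * s * J))
    (kf (J.transpose * H * J.map conj))
    (kf (J.transpose * w * J.map conj)) (fun p q => tf_pullr J s p q)
    (fun p q => kf_pullr J H p q) (fun p q => kf_pullr J w p q)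
  rw [W3_tf_kf (skewr hs) _ (posDef_pullr hw hJ)] at h1
  exact (mul_eq_zero.1 h1).resolve_right (by exact_mod_cast hκ.ne')

/-- (2,0), (0,2): positivity -/
theorem Wt_pos (hu : LinearIndependent ℂ u.row) (hs : s.transpose = -s) (hw : w.PosDef) :
    ∃ r : ℝ, 0 ≤ r ∧ Wt (m := m + 2) (abcm (tf s) (cj (tf s)) (kf w)) u = (r : ℂ) ∧
      (dtb u s ≠ 0 → 0 < r) := by
  obtain ⟨J, κ, hκ, -, hJ, -, h, hd⟩ := exists_restr3 hu
  have h1 := h (tf s) (cj (tf s)) (kf w) (tf (J.transpose * s * J))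
    (cj (tf (J.transpose * s * J)))
    (kf (J.transpose * w * J.map conj)) (fun p q => tf_pullr J s p q)
    (fun p q => by rw [cj_apply, cj_apply, tf_pullr J s p q]) (fun p q => kf_pullr J w p q)
  obtain ⟨r, hr0, hr, hr1, -⟩ := W3_pos (skewr (J := J) hs) (posDef_pullr hw hJ)
  have hκ' : (κ : ℂ) ≠ 0 := by exact_mod_cast hκ.ne'
  refine ⟨r / κ, by positivity, ?_, fun hne => ?_⟩
  · rw [hr] at h1
    rw [Complex.ofReal_div, eq_div_iff hκ']
    exact h1
  · refine div_pos (hr1 fun h0 => hne ?_) hκ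
    have h2 := hd s
    rw [h0, Matrix.det_zero, norm_zero] at h2
    exact norm_eq_zero.1 ((mul_eq_zero.1 h2).resolve_right hκ.ne')

/-- the volume -/
theorem Wt_vol (hu : LinearIndependent ℂ u.row) (hw : w.PosDef) :
    ∃ r : ℝ, 0 < r ∧ Wt (m := m + 2) (abcm (kf w) (kf w) (kf w)) u = (r : ℂ) := by
  obtain ⟨J, κ, hκ, -, hJ, -, h, hd⟩ := exists_restr3 hu
  have h1 := h (kf w) (kf w) (kf w) (kf (J.transpose * w * J.map conj))
    (kf (J.transpose * w * J.map conj))
    (kf (J.transpose * w * J.map conj)) (fun p q => kf_pullr J w p q)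
    (fun p q => kf_pullr J w p q) (fun p q => kf_pullr J w p q)
  have hw' := posDef_pullr (J := J) hw hJ
  set w' := J.transpose * w * J.map conj with hw'd
  have hu' : IsUnit w'.det := isUnit_iff_ne_zero.2 hw'.det_pos.ne'
  have hdr : ((w'.det.re : ℝ) : ℂ) = w'.det := by
    have h2 := hw'.det_pos
    rw [Complex.pos_iff] at h2
    exact Complex.ext (by simp) (by simp [h2.2])
  have hdp : 0 < w'.det.re := by
    have h2 := hw'.det_pos
    rw [Complex.pos_iff] at h2
    exact h2.1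
  rw [W3_kf_kf _ _ hw', Matrix.nonsing_inv_mul _ hu', Matrix.one_mul, Matrix.trace_one,
    Fintype.card_fin] at h1
  have hκ' : (κ : ℂ) ≠ 0 := by exact_mod_cast hκ.ne'
  refine ⟨(m.factorial : ℝ) * w'.det.re * (((m : ℝ) + 2) * (m + 2) - (m + 2)) / κ, ?_, ?_⟩
  · have h3 : (0 : ℝ) < (m.factorial : ℝ) := by exact_mod_cast m.factorial_pos
    have h4 : (0 : ℝ) < ((m : ℝ) + 2) * (m + 2) - (m + 2) := by nlinarith [(Nat.cast_nonneg m : (0:ℝ) ≤ m)]
    positivity
  · rw [Complex.ofReal_div, eq_div_iff hκ', h1]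
    push_cast
    rw [hdr]

end vals

/-- the volume form of `s` and `u` -/
theorem Wt_det (m : ℕ) : ∃ κ : ℝ, 0 < κ ∧ ∀ (a : ℕ) (u : Matrix (Fin a) (Fin (m + a)) ℂ)
    (s : Matrix (Fin (m + a)) (Fin (m + a)) ℂ), LinearIndependent ℂ u.row → s.transpose = -s →
    Wt (fun i : Fin m => if 2 * i.val < m then tf s else cj (tf s)) u =
      ((κ * ‖dtb u s‖ : ℝ) : ℂ) := by
  obtain ⟨κ, hκ, h⟩ := H638.HK.wDet m
  refine ⟨κ, hκ, fun a u s hu hs => ?_⟩
  obtain ⟨J, ρ, hρ, -, hJ, -, h1, hd⟩ := exists_restr hu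
  have h2 := h1 (fun i : Fin m => if 2 * i.val < m then tf s else cj (tf s))
    (fun i : Fin m => if 2 * i.val < m then tf (J.transpose * s * J) else
      cj (tf (J.transpose * s * J))) (fun i p q => by
      show (if 2 * i.val < m then tf (J.transpose * s * J) else cj (tf (J.transpose * s * J))) p q =
        (if 2 * i.val < m then tf s else cj (tf s)) (J.mulVec p) (J.mulVec q)
      split_ifs
      · exact tf_pullr J s p q
      · rw [cj_apply, cj_apply, tf_pullr J s p q])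
  rw [h _ (skewr hs), ← hd s] at h2
  have hρ' : (ρ : ℂ) ≠ 0 := by exact_mod_cast hρ.ne'
  refine mul_right_cancel₀ hρ' (h2.trans ?_)
  push_cast
  ring

end Vale.Agent.P281.H747.HKT
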