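import Vale.Agent.P281.H747.HKT.Dep
import Vale.Agent.P281.H83.HKT.Defs

/-!
# P281, T-HKT: values of the products with `θ`, in the letters of `H83/HKT/Defs` (helper747)
-/

open Set Filter Metric MeasureTheory Equiv
open scoped Topology ContDiff ComplexConjugate ComplexOrder

noncomputable section

namespace Vale.Agent.P281.H747.HKT

open Vale.Agent.P281.H64.TK Vale.Agent.P281.H64.TK.TS Vale.Agent.P281.H83.HK
open Vale.Agent.P281.H64 (Cm)
open Vale.Agent.P281.H747.HK
open Vale.Agent.P281.H83.HKT (dt uu thj lst W4 thl)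

theorem dt_eq {a d : ℕ} (u : Matrix (Fin a) (Fin d) ℂ) (s : Matrix (Fin d) (Fin d) ℂ) :
    dt u s = dtb u s := rfl

theorem thj_eq {a d : ℕ} (u : Matrix (Fin a) (Fin d) ℂ) (j : Fin a) : thj u j = th (u j) := rfl

/-- the permutation for `lst` -/
def pl (m a : ℕ) (hm : 2 ≤ m) : Perm (Fin (m + a)) where
  toFun i := if h0 : i.val < 2 then i else if h : i.val < m then ⟨i.val + a, by omega⟩ else
    ⟨i.val - m + 2, by omega⟩
  invFun i := if h0 : i.val < 2 then i else if h : i.val < a + 2 then ⟨i.val - 2 + m, by omega⟩ else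
    ⟨i.val - a, by omega⟩
  left_inv i := by
    apply Fin.ext
    have := i.isLt
    by_cases h1 : i.val < 2
    · simp [h1]
    · by_cases h2 : i.val < m
      · have h3 : ¬ i.val + a < 2 := by omega
        have h4 : ¬ i.val + a < a + 2 := by omega
        simp [h1, h2, h3, h4]
      · have h3 : ¬ i.val - m + 2 < 2 := by omega
        have h4 : i.val - m + 2 < a + 2 := by omega
        simp only [h1, h2, dif_neg, not_false_eq_true, h3, h4, dif_pos]
        omega
  right_inv i := by
    apply Fin.ext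
    have := i.isLt
    by_cases h1 : i.val < 2
    · simp [h1]
    · by_cases h2 : i.val < a + 2
      · have h3 : ¬ i.val - 2 + m < 2 := by omega
        have h4 : ¬ i.val - 2 + m < m := by omega
        simp only [h1, h2, dif_neg, not_false_eq_true, h3, h4, dif_pos]
        omega
      · have h3 : ¬ i.val - a < 2 := by omega
        have h4 : i.val - a < m := by omega
        simp only [h1, h2, dif_neg, not_false_eq_true, h3, h4, dif_pos]
        omega

theorem W4_eq {m a : ℕ} (hm : 2 ≤ m) (u : Matrix (Fin a) (Fin (m + a)) ℂ) (x y c : L2 (m + a)) :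
    W4 u x y c = Wt (m := m) (abcm x y c) u := by
  have h1 := (H864.HK.wLin (m + a) (lst u x y c) ⟨0, by omega⟩ x y 0 (pl m a hm)).2.2
  rw [W4, ← h1, Wt]
  congr 1
  funext i
  show lst u x y c (pl m a hm i) = Fin.append (abcm x y c) (fun j => th (u j)) i
  refine Fin.addCases (fun k => ?_) (fun j => ?_) i
  · rw [Fin.append_left]
    have hv : (Fin.castAdd a k).val = k.val := rfl
    by_cases h2 : k.val < 2
    · have h3 : pl m a hm (Fin.castAdd a k) = Fin.castAdd a k := by
        show (if h0 : (Fin.castAdd a k).val < 2 then _ else _) = _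
        rw [dif_pos (by rw [hv]; exact h2)]
      rw [h3]
      unfold lst abcm
      rw [hv]
      have h4 : k.val = 0 ∨ k.val = 1 := by omega
      rcases h4 with h4 | h4
      · simp [h4]
      · simp [h4]
    · have h3 : (pl m a hm (Fin.castAdd a k)).val = k.val + a := by
        show (if h0 : (Fin.castAdd a k).val < 2 then _ else if h : (Fin.castAdd a k).val < m then
          (⟨(Fin.castAdd a k).val + a, _⟩ : Fin (m + a)) else _).val = _
        rw [dif_neg (by rw [hv]; exact h2), dif_pos (by rw [hv]; exact k.isLt)]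
        rfl
      unfold lst abcm
      rw [h3]
      have h4 : ¬ k.val + a = 0 := by omega
      have h5 : ¬ k.val + a = 1 := by omega
      have h6 : ¬ k.val + a - 2 < a := by omega
      have h7 : ¬ k.val = 0 := by omega
      have h8 : ¬ k.val = 1 := by omega
      rw [if_neg h4, if_neg h5, dif_neg h6, if_neg h7, if_neg h8]
  · rw [Fin.append_right]
    have hv : (Fin.natAdd m j).val = m + j.val := rfl
    have h3 : (pl m a hm (Fin.natAdd m j)).val = j.val + 2 := by
      show (if h0 : (Fin.natAdd m j).val < 2 then _ else if h : (Fin.natAdd m j).val < m then _ else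
        (⟨(Fin.natAdd m j).val - m + 2, _⟩ : Fin (m + a))).val = _
      rw [dif_neg (by rw [hv]; omega), dif_neg (by rw [hv]; omega)]
      show (Fin.natAdd m j).val - m + 2 = _
      rw [hv]
      omega
    unfold lst
    have h4 : ¬ j.val + 2 = 0 := by omega
    have h5 : ¬ j.val + 2 = 1 := by omega
    have h6 : j.val + 2 - 2 < a := by have := j.isLt; omega
    have h7 : ¬ (pl m a hm (Fin.natAdd m j)).val = 0 := by rw [h3]; exact h4
    have h8 : ¬ (pl m a hm (Fin.natAdd m j)).val = 1 := by rw [h3]; exact h5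
    have h9 : (pl m a hm (Fin.natAdd m j)).val - 2 < a := by rw [h3]; exact h6
    rw [if_neg h7, if_neg h8, dif_pos h9, thj_eq]
    congr 2
    apply Fin.ext
    show (pl m a hm (Fin.natAdd m j)).val - 2 = j.val
    rw [h3]
    omega

/-- the permutation for `thl` -/
def pt (m a : ℕ) : Perm (Fin (m + a)) where
  toFun i := if h : i.val < m then ⟨i.val + a, by omega⟩ else ⟨i.val - m, by omega⟩
  invFun i := if h : i.val < a then ⟨i.val + m, by omega⟩ else ⟨i.val - a, by omega⟩
  left_inv i := by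
    apply Fin.ext
    have := i.isLt
    by_cases h2 : i.val < m
    · have h4 : ¬ i.val + a < a := by omega
      simp [h2]
    · have h4 : i.val - m < a := by omega
      simp only [h2, dif_neg, not_false_eq_true, h4, dif_pos]
      omega
  right_inv i := by
    apply Fin.ext
    have := i.isLt
    by_cases h2 : i.val < a
    · have h4 : ¬ i.val + m < m := by omega
      simp [h2]
    · have h4 : i.val - a < m := by omega
      simp only [h2, dif_neg, not_false_eq_true, h4, dif_pos]
      omega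

theorem thl_eq {m a : ℕ} (hm : 0 < m) (u : Matrix (Fin a) (Fin (m + a)) ℂ)
    (x : Fin (m + a) → L2 (m + a)) :
    W (thl u x) = Wt (fun i : Fin m => x ⟨i.val + a, by omega⟩) u := by
  have h1 := (H864.HK.wLin (m + a) (thl u x) ⟨0, by omega⟩ (x ⟨0, by omega⟩) (x ⟨0, by omega⟩) 0
    (pt m a)).2.2
  rw [← h1, Wt]
  congr 1
  funext i
  show thl u x (pt m a i) = Fin.append (fun i : Fin m => x ⟨i.val + a, by omega⟩)
    (fun j => th (u j)) i
  refine Fin.addCases (fun k => ?_) (fun j => ?_) i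
  · rw [Fin.append_left]
    have hv : (Fin.castAdd a k).val = k.val := rfl
    have h3 : pt m a (Fin.castAdd a k) = ⟨k.val + a, by omega⟩ := by
      show (if h : (Fin.castAdd a k).val < m then
          (⟨(Fin.castAdd a k).val + a, _⟩ : Fin (m + a)) else _) = _
      rw [dif_pos (by rw [hv]; exact k.isLt)]
      rfl
    rw [h3, thl, dif_neg (by simp)]
  · rw [Fin.append_right]
    have hv : (Fin.natAdd m j).val = m + j.val := rfl
    have h3 : pt m a (Fin.natAdd m j) = ⟨j.val, by omega⟩ := by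
      show (if h : (Fin.natAdd m j).val < m then _ else
        (⟨(Fin.natAdd m j).val - m, _⟩ : Fin (m + a))) = _
      rw [dif_neg (by rw [hv]; omega)]
      apply Fin.ext
      show (Fin.natAdd m j).val - m = j.val
      rw [hv]
      omega
    rw [h3, thl, dif_pos j.isLt]
    rfl

/-! ### Values -/

/-- a factor which vanishes on `ker u` -/
theorem Wt_zero {m a : ℕ} (b : Fin m → L2 (m + a)) (u : Matrix (Fin a) (Fin (m + a)) ℂ) (i : Fin m)
    (h : ∀ p q : Cm (m + a), u.mulVec p = 0 → u.mulVec q = 0 → b i p q = 0) : Wt b u = 0 := by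
  by_cases hu : LinearIndependent ℂ u.row
  swap
  · exact Wt_dep b hu
  obtain ⟨J, κ, hκ, huJ, -, -, h1, -⟩ := exists_restr hu
  let LJr : Cm m →L[ℝ] Cm (m + a) :=
    (LinearMap.toContinuousLinearMap (Matrix.toLin' J)).restrictScalars ℝ
  have hJu : ∀ p : Cm m, u.mulVec (J.mulVec p) = 0 := fun p => by
    rw [Matrix.mulVec_mulVec, huJ, Matrix.zero_mulVec]
  have h2 := h1 b (fun j => (b j).bilinearComp LJr LJr) (fun j p q => rfl)
  have h3 : (b i).bilinearComp LJr LJr = 0 :=
    ContinuousLinearMap.ext fun p => ContinuousLinearMap.ext fun q => h _ _ (hJu p) (hJu q)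
  have h4 := (H864.HK.wLin m (fun j => (b j).bilinearComp LJr LJr) i 0 0 0 1).1
  have h6 : W (Function.update (fun j => (b j).bilinearComp LJr LJr) i ((0 : L2 m) + 0)) =
      W (Function.update (fun j => (b j).bilinearComp LJr LJr) i 0) := by
    have h7 : (0 : L2 m) + 0 = 0 :=
      ContinuousLinearMap.ext fun p => ContinuousLinearMap.ext fun q => add_zero (0 : ℂ)
    exact congrArg (fun x => W (Function.update (fun j => (b j).bilinearComp LJr LJr) i x)) h7
  replace h4 : W (Function.update (fun j => (b j).bilinearComp LJr LJr) i 0) = 0 := by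
    have h8 : W (Function.update (fun j => (b j).bilinearComp LJr LJr) i 0) +
        W (Function.update (fun j => (b j).bilinearComp LJr LJr) i 0) =
        W (Function.update (fun j => (b j).bilinearComp LJr LJr) i 0) := h4.symm.trans h6
    linear_combination h8
  have h5 : Function.update (fun j => (b j).bilinearComp LJr LJr) i 0 =
      fun j => (b j).bilinearComp LJr LJr := by
    rw [← h3, Function.update_eq_self]
  rw [h5] at h4
  rw [h4] at h2
  exact (mul_eq_zero.1 h2).resolve_right (by exact_mod_cast hκ.ne')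

section
variable {a d : ℕ} {u : Matrix (Fin a) (Fin d) ℂ} {s s' w : Matrix (Fin d) (Fin d) ℂ}

theorem exists_m (h : a + 2 ≤ d) : ∃ m, d = m + 2 + a := ⟨d - 2 - a, by omega⟩

/-- symmetry -/
theorem W4_symm (h : a + 2 ≤ d) (u : Matrix (Fin a) (Fin d) ℂ) (x y c : L2 d) :
    W4 u x y c = W4 u y x c := by
  have h1 := (H864.HK.wLin d (lst u x y c) ⟨0, by omega⟩ x y 0
    (Equiv.swap ⟨0, by omega⟩ ⟨1, by omega⟩)).2.2
  rw [W4, ← h1, W4]
  congr 1
  funext i
  show lst u x y c (Equiv.swap (⟨0, by omega⟩ : Fin d) ⟨1, by omega⟩ i) = lst u y x c i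
  by_cases h0 : i = ⟨0, by omega⟩
  · subst h0
    rw [Equiv.swap_apply_left]
    simp [lst]
  · by_cases h2 : i = ⟨1, by omega⟩
    · subst h2
      rw [Equiv.swap_apply_right]
      simp [lst]
    · rw [Equiv.swap_apply_of_ne_of_ne h0 h2]
      have h3 : i.val ≠ 0 := fun h => h0 (Fin.ext h)
      have h4 : i.val ≠ 1 := fun h => h2 (Fin.ext h)
      simp [lst, h3, h4]

/-- a first factor which vanishes on `ker u` -/
theorem W4_zero (h : a + 2 ≤ d) {x : L2 d}
    (hx : ∀ p q : Cm d, u.mulVec p = 0 → u.mulVec q = 0 → x p q = 0) (y c : L2 d) :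
    W4 u x y c = 0 := by
  obtain ⟨m, rfl⟩ := exists_m h
  rw [W4_eq (by omega)]
  exact Wt_zero _ _ ⟨0, by omega⟩ hx

theorem tf_uu_zero (m : Matrix (Fin a) (Fin a) ℂ) {p q : Cm d} (hp : u.mulVec p = 0) :
    tf (uu m u) p q = 0 := by
  rw [uu, tf_pullr, hp]
  simp

theorem W4_uu (h : a + 2 ≤ d) (m : Matrix (Fin a) (Fin a) ℂ) (y c : L2 d) :
    W4 u (tf (uu m u)) y c = 0 ∧ W4 u (cj (tf (uu m u))) y c = 0 :=
  ⟨W4_zero h (fun p q hp _ => tf_uu_zero m hp) y c,
    W4_zero h (fun p q hp _ => by rw [cj_apply, tf_uu_zero m hp, map_zero]) y c⟩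

theorem W4_tf_tf (h : a + 2 ≤ d) (u : Matrix (Fin a) (Fin d) ℂ) (hs : s.transpose = -s)
    (hs' : s'.transpose = -s') (hw : w.PosDef) : W4 u (tf s) (tf s') (kf w) = 0 := by
  obtain ⟨m, rfl⟩ := exists_m h
  rw [W4_eq (by omega)]
  by_cases hu : LinearIndependent ℂ u.row
  · exact Wt_tf_tf hu hs hs' hw
  · exact Wt_dep _ hu

theorem W4_tf_kf (h : a + 2 ≤ d) (u : Matrix (Fin a) (Fin d) ℂ) (hs : s.transpose = -s)
    (H : Matrix (Fin d) (Fin d) ℂ) (hw : w.PosDef) : W4 u (tf s) (kf H) (kf w) = 0 := by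
  obtain ⟨m, rfl⟩ := exists_m h
  rw [W4_eq (by omega)]
  by_cases hu : LinearIndependent ℂ u.row
  · exact Wt_tf_kf hu hs H hw
  · exact Wt_dep _ hu

theorem W4_pos (h : a + 2 ≤ d) (u : Matrix (Fin a) (Fin d) ℂ) (hs : s.transpose = -s)
    (hw : w.PosDef) : ∃ r : ℝ, 0 ≤ r ∧ W4 u (tf s) (cj (tf s)) (kf w) = (r : ℂ) ∧
      (dt u s ≠ 0 → 0 < r) := by
  obtain ⟨m, rfl⟩ := exists_m h
  rw [W4_eq (by omega)]
  by_cases hu : LinearIndependent ℂ u.row
  · exact Wt_pos hu hs hw
  · exact ⟨0, le_rfl, by rw [Wt_dep _ hu, Complex.ofReal_zero], fun hne => absurd (dtb_dep s hu) hne⟩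

theorem W4_vol (h : a + 2 ≤ d) (u : Matrix (Fin a) (Fin d) ℂ) (hw : w.PosDef) :
    ∃ r : ℝ, 0 ≤ r ∧ W4 u (kf w) (kf w) (kf w) = (r : ℂ) ∧
      (LinearIndependent ℂ u.row → 0 < r) := by
  obtain ⟨m, rfl⟩ := exists_m h
  rw [W4_eq (by omega)]
  by_cases hu : LinearIndependent ℂ u.row
  · obtain ⟨r, hr, h1⟩ := Wt_vol hu hw
    exact ⟨r, hr.le, h1, fun _ => hr⟩
  · exact ⟨0, le_rfl, by rw [Wt_dep _ hu, Complex.ofReal_zero], fun hne => absurd hne hu⟩

/-- the (1,1)-part of the volume form, with a Hermitian semi-definite factor -/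
theorem row_indep_of_dt (hne : dt u s ≠ 0) : LinearIndependent ℂ u.row := row_indep hne

end

/-- **The volume form of `u`, `s`.** -/
theorem thl_det (a d : ℕ) (h : a < d) : ∃ κ : ℝ, 0 < κ ∧
    ∀ (u : Matrix (Fin a) (Fin d) ℂ) (s : Matrix (Fin d) (Fin d) ℂ), s.transpose = -s →
      W (thl u fun i => if 2 * (i.val - a) < d - a then tf s else cj (tf s)) =
        ((κ * ‖dt u s‖ : ℝ) : ℂ) := by
  obtain ⟨m, rfl⟩ : ∃ m, d = m + a := ⟨d - a, by omega⟩
  obtain ⟨κ, hκ, h1⟩ := Wt_det m
  refine ⟨κ, hκ, fun u s hs => ?_⟩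
  rw [thl_eq (by omega)]
  have h2 : (fun i : Fin m => if 2 * (((⟨i.val + a, by omega⟩ : Fin (m + a))).val - a) <
      m + a - a then tf s else cj (tf s)) =
      fun i : Fin m => if 2 * i.val < m then tf s else cj (tf s) := by
    funext i
    simp only [Nat.add_sub_cancel]
  rw [h2]
  by_cases hu : LinearIndependent ℂ u.row
  · exact h1 a u s hu hs
  · rw [Wt_dep _ hu, dt_eq, dtb_dep s hu, norm_zero, mul_zero, Complex.ofReal_zero]

end Vale.Agent.P281.H747.HKT
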